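import Vale.Agent.P134.LI.Blocks

/-! P134, package R3: further exact statements (pointwise lemma PW, gradient lemma CDX, cut-offs,
exponential weight, overlap). -/

set_option linter.all false

namespace Vale.Agent.P134.LI

open Vale.Agent.P134 Vale.Agent.P134.SM MeasureTheory Filter Topology

/-- S-A: the pointwise lemma on one ray. -/
def StPW : Prop := ∀ s3 : ℝ, 0 < s3 → ∃ c2 C ε0 : ℝ, 0 < c2 ∧ 0 < C ∧ 0 < ε0 ∧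
  ∀ ε : ℝ, 0 < ε → ε ≤ ε0 → ∃ δ0 : ℝ, 0 < δ0 ∧
  ∀ κ Λ : ℝ, 0 < κ → κ ≤ ε0 → 0 ≤ Λ → Λ ≤ 1 →
  ∀ u : R3 → ℝ, Sol u → (∀ x, |u x| < 1) → ∀ χ : R3 → ℝ, ContDiff ℝ 1 χ →
  (∀ y, 0 ≤ χ y ∧ χ y ≤ 1) → (∀ y i, |pd i χ y| ≤ Λ) →
  ∀ x, |phi u x| ≤ s3 → qq u x ≤ δ0 →
  (∫ t, χ (xt u x t) * (jj u x t * (deriv (prf ε κ u x) t ^ 2
      + VV u (xt u x t) * prf ε κ u x t ^ 2)))
    + (1 / 2) * ∫ t, jj u x t * deriv (fun s => prf ε κ u x s ^ 2) t *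
        ∑ i, nn u x i * pd i χ (xt u x t)
    ≤ χ x * (sig0 * kk u x - c2 * qq u x) + C * (Λ + ε) * (qq u x + κ ^ 2)

/-- S-B: the tangential gradient; also positivity of `J` and of `|∇φ|`. -/
def StCDX : Prop := ∀ s3 μ : ℝ, 0 < s3 → 0 < μ → ∃ C ε0 : ℝ, 0 < C ∧ 0 < ε0 ∧
  ∀ ε : ℝ, 0 < ε → ε ≤ ε0 → ∃ δ0 : ℝ, 0 < δ0 ∧ ∀ κ : ℝ, 0 < κ → κ ≤ ε0 →
  ∀ u : R3 → ℝ, Sol u → (∀ x, |u x| < 1) →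
  (∀ x, |phi u x| ≤ s3 → qq u x ≤ δ0 → ∀ t, |t| ≤ dep ε κ u x + 1 →
    1 / 2 < rr u x ∧ 1 - μ ≤ jj u x t ∧ jj u x t ≤ 1 + μ) ∧
  (∀ E : R3 → ℝ, ContDiff ℝ 1 E → ∀ χ : R3 → ℝ, Continuous χ → (∀ y, 0 ≤ χ y ∧ χ y ≤ 1) →
    ∀ x, |phi u x| ≤ s3 → qq u x ≤ δ0 →
    ∫ t, χ (xt u x t) * (esq (cdx u (fun z => E z.1 * prf ε κ u z.1 z.2) (x, t)) / jj u x t)
      ≤ (1 + μ) * gs E x * (∫ t, χ (xt u x t) * prf ε κ u x t ^ 2)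
        + C * ε * (qq u x + κ ^ 2) * E x ^ 2) ∧
  (∀ E : R3 → ℝ, ContDiff ℝ 1 E → ∀ x, |phi u x| ≤ s3 → qq u x ≤ δ0 →
    ∀ t, Real.sqrt (esq (cdx u (fun z => (E z.1 * prf ε κ u z.1 z.2) ^ 2) (x, t)))
      ≤ C * |E x| * Real.sqrt (gs E x) * prf ε κ u x t ^ 2
        + (if dep ε κ u x ≤ |t| ∧ |t| ≤ dep ε κ u x + 1 then C * ε * (qq u x + κ ^ 2) * E x ^ 2
            else 0))

/-- Cut-offs around an arbitrary set. -/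
def StCut : Prop := ∃ C : ℝ, 0 < C ∧ ∀ (B : Set R3) (W : ℝ), 0 < W →
  ∃ χ : R3 → ℝ, ContDiff ℝ 2 χ ∧ (∀ x, 0 ≤ χ x ∧ χ x ≤ 1) ∧
    (∀ x, ¬ Far B (5 / 4 * W) x → χ x = 0) ∧ (∀ x, Far B (7 / 4 * W) x → χ x = 1) ∧
    (∀ x i, |pd i χ x| ≤ C / W) ∧ (∀ x i j, |pd i (pd j χ) x| ≤ C / W ^ 2)

/-- Cut-offs at infinity. -/
def StCutR : Prop := ∃ C : ℝ, 0 < C ∧ ∀ R : ℝ, 0 < R →
  ∃ a : R3 → ℝ, ContDiff ℝ 2 a ∧ (∀ x, 0 ≤ a x ∧ a x ≤ 1) ∧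
    (∀ x, eno x ≤ R → a x = 1) ∧ (∀ x, 2 * R ≤ eno x → a x = 0) ∧
    (∀ x i, |pd i a x| ≤ C / R) ∧ (∀ x i j, |pd i (pd j a) x| ≤ C / R ^ 2)

/-- The exponential weight. -/
def StGw : Prop := ∀ lam : ℝ, 0 < lam → lam ≤ 1 →
  (∀ k : ℕ, ContDiff ℝ k (Gw lam)) ∧ (∀ x, 0 < Gw lam x ∧ Gw lam x ≤ 1) ∧
  (∀ x, gs (Gw lam) x ≤ lam ^ 2 * Gw lam x ^ 2) ∧
  (∀ x y, Gw lam x ≤ Real.exp (lam * eno (x - y)) * Gw lam y) ∧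
  Integrable (fun x => Gw lam x ^ 2) ∧
  (∀ B : Set R3, Latt B → Summable (fun b : B => Gw lam b ^ 2)) ∧
  (∀ B : Set R3, Latt B → ∀ r : ℝ, 0 < r →
    ∫ x in {x | ¬ Far B r x}, Gw lam x ^ 2
      ≤ 8 * r ^ 3 * Real.exp (2 * lam * r) * ∑' b : B, Gw lam b ^ 2) ∧
  (∀ B : Set R3, Latt B → ∀ F : R3 → ℝ, Continuous F → (∀ x, 0 ≤ F x) →
    (∃ M, ∀ x, F x ≤ M) → ∀ c : ℝ, (∀ b ∈ B, c ≤ ∫ x in {x | eno (x - b) ≤ 4}, F x) →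
    c / 729 * Real.exp (-8 * lam) * ∑' b : B, Gw lam b ^ 2
      ≤ ∫ x in {x | ¬ Far B 5 x}, Gw lam x ^ 2 * F x)

end Vale.Agent.P134.LI
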