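import Vale.Agent.P134.SM.Ident
import Vale.Agent.P134.SM.Nu

/-! P134, package R3: common definitions for the slab form of the localised stability inequality,
and the two main statements (`StMIS`, `StSLAB`).  See note 9779. -/

set_option linter.all false

namespace Vale.Agent.P134.LI

open Vale.Agent.P134 Vale.Agent.P134.SM MeasureTheory Filter Topology

abbrev R3 : Type := Fin 3 → ℝ

/-- Euclidean scalar product (the Euclidean norm is `eno` of `Bdl/B1`). -/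
noncomputable def dot (a b : R3) : ℝ := ∑ i, a i * b i

/-- The heteroclinic, its first and second derivative. -/
noncomputable def g0 (s : ℝ) : ℝ := Real.tanh (s / Real.sqrt 2)
noncomputable def g1 (s : ℝ) : ℝ := (1 - g0 s ^ 2) / Real.sqrt 2
noncomputable def g2 (s : ℝ) : ℝ := -(g0 s * (1 - g0 s ^ 2))
/-- `∫ g1²`. -/
noncomputable def sig0 : ℝ := 2 * Real.sqrt 2 / 3

/-- `φ = √2 artanh u`. -/
noncomputable def phi (u : R3 → ℝ) (x : R3) : ℝ :=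
  Real.sqrt 2 / 2 * (Real.log (1 + u x) - Real.log (1 - u x))
/-- `f = √(2W(u)) = g'(φ)`. -/
noncomputable def ff (u : R3 → ℝ) (x : R3) : ℝ := (1 - u x ^ 2) / Real.sqrt 2
/-- `V = W''(u)`. -/
noncomputable def VV (u : R3 → ℝ) (x : R3) : ℝ := 3 * u x ^ 2 - 1
/-- `q = 1 - |∇φ|²`; the Modica deficit is `D = f² q`. -/
noncomputable def qq (u : R3 → ℝ) (x : R3) : ℝ := 1 - gs (phi u) x
/-- `|∇φ|`. -/
noncomputable def rr (u : R3 → ℝ) (x : R3) : ℝ := wn (phi u) x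
/-- `n = ∇φ/|∇φ|`. -/
noncomputable def nn (u : R3 → ℝ) (x : R3) : R3 := fun i => nu (phi u) i x
/-- mean curvature `H = div n` of the level sets of `φ`. -/
noncomputable def hh (u : R3 → ℝ) (x : R3) : ℝ := mc (phi u) x
/-- shape operator `A = P Dn P = Dn P`, `A i j = ∂_j n_i - (∂_k n_i n_k) n_j`. -/
noncomputable def aa (u : R3 → ℝ) (i j : Fin 3) (x : R3) : ℝ :=
  pd j (nu (phi u) i) x - (∑ k, pd k (nu (phi u) i) x * nu (phi u) k x) * nu (phi u) j x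
/-- `|A|²`. -/
noncomputable def a2 (u : R3 → ℝ) (x : R3) : ℝ := ∑ i, ∑ j, aa u i j x ^ 2
/-- Gauss curvature `K = (H² - |A|²)/2`. -/
noncomputable def kk (u : R3 → ℝ) (x : R3) : ℝ := (hh u x ^ 2 - a2 u x) / 2
/-- `J = 1 + t H + t² K`. -/
noncomputable def jj (u : R3 → ℝ) (x : R3) (t : ℝ) : ℝ := 1 + t * hh u x + t ^ 2 * kk u x
/-- tangential projection. -/
noncomputable def pt (u : R3 → ℝ) (i j : Fin 3) (x : R3) : ℝ :=
  (if i = j then 1 else 0) - nu (phi u) i x * nu (phi u) j x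
/-- `C = P + t (H P - A)`. -/
noncomputable def cc (u : R3 → ℝ) (i j : Fin 3) (x : R3) (t : ℝ) : ℝ :=
  pt u i j x + t * (hh u x * pt u i j x - aa u i j x)
/-- `x~ = x + t n(x)`. -/
noncomputable def xt (u : R3 → ℝ) (x : R3) (t : ℝ) : R3 := fun i => x i + t * nn u x i

/-- `HYP(V)` with bound `C`: bounded approximate Riccati fields (what stability gives). -/
def HypC (C : ℝ) (V : R3 → ℝ) : Prop :=
  ∀ R ε : ℝ, 0 < R → 0 < ε → ∃ X : R3 → R3, ContDiff ℝ 1 X ∧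
    (∀ x ∈ box 3 R, eno (X x) ≤ C) ∧
    ∀ x ∈ box 3 R, ∑ i, pd i (fun y => X y i) x + dot (X x) (X x) ≤ V x + ε

def Hyp (V : R3 → ℝ) : Prop := ∃ C : ℝ, HypC C V

/-- The solutions considered in package R3. -/
structure HS (u : R3 → ℝ) : Prop extends Sol u where
  lt : ∀ x, |u x| < 1
  hyp : Hyp (VV u)

/-- smooth cut-off in `t`: `1` for `|t| ≤ τ`, `0` for `|t| ≥ τ + 1`. -/
noncomputable def zt (τ t : ℝ) : ℝ := Real.smoothTransition (τ + 1 - |t|)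

/-- depth of the tube: `e^{-2√2 τ} = ε (q + κ²)`. -/
noncomputable def dep (ε κ : ℝ) (u : R3 → ℝ) (x : R3) : ℝ :=
  Real.log (1 / (ε * (qq u x + κ ^ 2))) / (2 * Real.sqrt 2)

/-- the profile on the ray through `x`. -/
noncomputable def prf (ε κ : ℝ) (u : R3 → ℝ) (x : R3) (t : ℝ) : ℝ :=
  g1 (phi u x + t) * zt (dep ε κ u x) t

/-- lattice points. -/
def Latt (B : Set R3) : Prop := ∀ b ∈ B, ∀ i, ∃ m : ℤ, b i = m

/-- `d(x) ≥ r`, `d` = Euclidean distance to `B`. -/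
def Far (B : Set R3) (r : ℝ) (x : R3) : Prop := ∀ b ∈ B, r ≤ eno (x - b)

/-- the exponential weight. -/
noncomputable def Gw (lam : ℝ) (x : R3) : ℝ := Real.exp (-lam * Real.sqrt (1 + esq x))

open Classical in
/-- indicator of `{a ≤ d}`. -/
noncomputable def iF (B : Set R3) (a : ℝ) (x : R3) : ℝ := if Far B a x then 1 else 0

open Classical in
/-- indicator of `{a ≤ d < b}`. -/
noncomputable def iA (B : Set R3) (a b : ℝ) (x : R3) : ℝ := if Far B a x ∧ ¬ Far B b x then 1 else 0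

/-- The bad-zone transition (MIS): the measure `|w| G² f² dx` and the image of the tube measure
`w(φ)|∇φ| J G² ω² g'(φ+t)² ζ² dx dt` under `(x,t) ↦ x + t n` agree on `{W ≤ d < 2W}` up to D-level
terms.  `ω` is a base cut-off (`0` for `d < W/4`, `1` for `d ≥ W/2`) which keeps the base points
good. -/
def StMIS : Prop := ∀ s3 ε : ℝ, 0 < s3 → 0 < ε → ε < 1 → ∃ δ0 W0 : ℝ, 0 < δ0 ∧ 0 < W0 ∧
  ∀ W : ℝ, W0 ≤ W → ∃ κ0 : ℝ, 0 < κ0 ∧ ∀ κ : ℝ, 0 < κ → κ ≤ κ0 → ∃ lam0 : ℝ, 0 < lam0 ∧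
  ∀ (u : R3 → ℝ), HS u → ∀ B : Set R3, Latt B →
  (∀ x, |phi u x| ≤ s3 + 1 → Far B (W / 4) x → qq u x ≤ δ0) →
  ∀ lam : ℝ, 0 < lam → lam ≤ lam0 → ∀ w : ℝ → ℝ, Continuous w → (∀ s, 0 ≤ w s ∧ w s ≤ 1) →
  (∀ s, s3 ≤ |s| → w s = 0) → ∀ om : R3 → ℝ, Continuous om → (∀ x, 0 ≤ om x ∧ om x ≤ 1) →
  (∀ x, ¬ Far B (W / 4) x → om x = 0) → (∀ x, Far B (W / 2) x → om x = 1) →
  ∀ v : R3 → ℝ, Measurable v → (∀ x, |v x| ≤ 1) →
  (∀ x, v x ≠ 0 → Far B W x ∧ ¬ Far B (2 * W) x) →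
  |(∫ s, w s) * (∫ x, Gw lam x ^ 2 * ff u x ^ 2 * v x)
    - ∫ x, w (phi u x) * rr u x * (Gw lam x * om x) ^ 2 *
        ∫ t, jj u x t * prf ε κ u x t ^ 2 * v (xt u x t)|
    ≤ W ^ (1 / 4 : ℝ) * (∫ x, iA B (W / 2) (3 * W) x *
        (w (phi u x) * rr u x * qq u x * Gw lam x ^ 2))
      + W ^ (-50 : ℝ) * ∑' b : B, Gw lam b ^ 2

/-- The localised stability inequality in slab form. -/
def StSLAB : Prop := ∀ CX ε s3 : ℝ, 0 < CX → 0 < ε → 0 < s3 → ∃ δ0 c2 : ℝ, 0 < δ0 ∧ 0 < c2 ∧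
  ∀ c1 : ℝ, 0 < c1 → ∃ W0 : ℝ, 0 < W0 ∧ ∀ W : ℝ, W0 ≤ W → ∀ κ : ℝ, 0 < κ → ∃ lam0 : ℝ, 0 < lam0 ∧
  ∀ (u : R3 → ℝ), HS u → HypC CX (VV u) → ∀ B : Set R3, Latt B →
  (∀ x, |phi u x| ≤ s3 + 1 → Far B (W / 4) x → qq u x ≤ δ0) →
  (∀ b ∈ B, c1 ≤ ∫ x in {x | eno (x - b) ≤ 4}, ff u x ^ 3 * qq u x) →
  ∀ lam : ℝ, 0 < lam → lam ≤ lam0 → ∀ η : R3 → ℝ, ContDiff ℝ 1 η →
  (∀ x, 0 ≤ η x ∧ η x ≤ Gw lam x) → (∃ M : ℝ, ∀ x, gs η x ≤ M * Gw lam x ^ 2) →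
  (∀ x, ¬ Far B (4 * W) x → |phi u x| ≤ s3 → η x = Gw lam x) →
  ∀ w : ℝ → ℝ, Continuous w → (∀ s, 0 ≤ w s ∧ w s ≤ 1) → (∀ s, s3 ≤ |s| → w s = 0) →
  1 ≤ ∫ s, w s →
  c1 / 10000 * ∑' b : B, Gw lam b ^ 2
    + sig0 * (∫ x, iF B (2 * W) x * (w (phi u x) * rr u x *
        η x ^ 2 * ((a2 u x - hh u x ^ 2) / 2 + c2 * qq u x)))
    ≤ (1 + ε) * sig0 * (∫ x, w (phi u x) * rr u x * gs η x)
      + κ * ∫ x, w (phi u x) * rr u x * η x ^ 2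

/-- S3. -/
def StS3 : Prop := ∀ u : R3 → ℝ, HS u → ∀ x, qq u x = 0

/-- S3 in the form used by the `n = 4` package. -/
def StS3' : Prop := ∀ u : R3 → ℝ, Sol u → Hyp (VV u) →
  ∃ ν : R3, ∑ i, ν i ^ 2 = 1 ∧ ∃ g : ℝ → ℝ, ∀ x, u x = g (∑ i, ν i * x i)

end Vale.Agent.P134.LI
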