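import Vale.Agent.P134.LI.Stm2

/-! P134, package R3: exact statements of the last steps S-D1 (fixed radius), S-D2 (limit
`R → ∞`), S-D3 (absorption) of the proof of `StSLAB`. -/

set_option linter.all false

namespace Vale.Agent.P134.LI

open Vale.Agent.P134 Vale.Agent.P134.SM MeasureTheory Filter Topology

/-- All data of the localised inequality. -/
structure SDat (CX s3 δ0 W lam C1 : ℝ) (u : R3 → ℝ) (B : Set R3) (η : R3 → ℝ) (w : ℝ → ℝ)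
    (χ om : R3 → ℝ) : Prop where
  hs : HS u
  hyp : HypC CX (VV u)
  latt : Latt B
  good : ∀ x, |phi u x| ≤ s3 + 1 → Far B (W / 4) x → qq u x ≤ δ0
  lam0 : 0 < lam
  eta1 : ContDiff ℝ 1 η
  etab : ∀ x, 0 ≤ η x ∧ η x ≤ Gw lam x
  etaM : ∃ M : ℝ, ∀ x, gs η x ≤ M * Gw lam x ^ 2
  etaG : ∀ x, ¬ Far B (4 * W) x → |phi u x| ≤ s3 → η x = Gw lam x
  wc : Continuous w
  wb : ∀ s, 0 ≤ w s ∧ w s ≤ 1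
  ws : ∀ s, s3 ≤ |s| → w s = 0
  chi2 : ContDiff ℝ 2 χ
  chib : ∀ x, 0 ≤ χ x ∧ χ x ≤ 1
  chi0 : ∀ x, ¬ Far B W x → χ x = 0
  chi1 : ∀ x, Far B (7 / 4 * W) x → χ x = 1
  chid : ∀ x i, |pd i χ x| ≤ C1 / W
  chidd : ∀ x i j, |pd i (pd j χ) x| ≤ C1 / W ^ 2
  om2 : ContDiff ℝ 2 om
  omb : ∀ x, 0 ≤ om x ∧ om x ≤ 1
  om0 : ∀ x, ¬ Far B (W / 4) x → om x = 0
  om1 : ∀ x, Far B (W / 2) x → om x = 1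
  omd : ∀ x i, |pd i om x| ≤ 4 * C1 / W

/-- the mismatch bound of `StMIS`. -/
noncomputable def Bmis (W lam : ℝ) (u : R3 → ℝ) (B : Set R3) (w : ℝ → ℝ) : ℝ :=
  W ^ (1 / 4 : ℝ) * (∫ x, iA B (W / 2) (3 * W) x *
        (w (phi u x) * rr u x * qq u x * Gw lam x ^ 2))
      + W ^ (-50 : ℝ) * ∑' b : B, Gw lam b ^ 2

/-- right-hand side common to S-D1 and S-D2. -/
noncomputable def RHSD (μ C ε κ W lam : ℝ) (u : R3 → ℝ) (B : Set R3) (η : R3 → ℝ) (w : ℝ → ℝ)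
    (om : R3 → ℝ) : ℝ :=
  (1 + μ) * sig0 * (∫ x, w (phi u x) * rr u x * gs η x)
    + C * (1 / W + ε) * (∫ x, w (phi u x) * rr u x * (η x * om x) ^ 2 * (qq u x + κ ^ 2))
    + C / W * Bmis W lam u B w
    + (C * lam * W ^ 4 + C * W ^ 4 * Real.exp (-W)) * ∑' b : B, Gw lam b ^ 2

/-- S-D1: the inequality at radius `R`, error `Cu / R`. -/
def StSD1 : Prop := ∀ CX s3 μ C1 : ℝ, 0 < CX → 0 < s3 → 0 < μ → μ < 1 → 0 < C1 →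
  ∃ δ0 c2 C ε0 : ℝ, 0 < δ0 ∧ 0 < c2 ∧ 0 < C ∧ 0 < ε0 ∧ ∀ ε : ℝ, 0 < ε → ε ≤ ε0 →
  ∃ δ1 W0 : ℝ, 0 < δ1 ∧ δ1 ≤ δ0 ∧ 1 ≤ W0 ∧ ∀ W : ℝ, W0 ≤ W → ∃ κ0 : ℝ, 0 < κ0 ∧
  ∀ κ : ℝ, 0 < κ → κ ≤ κ0 → ∃ lam0 : ℝ, 0 < lam0 ∧ ∀ (lam : ℝ) (u : R3 → ℝ) (B : Set R3)
    (η : R3 → ℝ) (w : ℝ → ℝ) (χ om : R3 → ℝ), lam ≤ lam0 → SDat CX s3 δ1 W lam C1 u B η w χ om →
  ∃ Cu : ℝ, ∀ (R : ℝ) (b : R3 → ℝ), 1 ≤ R → ContDiff ℝ 2 b → (∀ x, 0 ≤ b x ∧ b x ≤ 1) →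
    (∀ x, eno x ≤ R → b x = 1) → (∀ x, 2 * R ≤ eno x → b x = 0) →
    (∀ x i, |pd i b x| ≤ C1 / R) → (∀ x i j, |pd i (pd j b) x| ≤ C1 / R ^ 2) →
    Real.sqrt 2 * (∫ s, w s) * (∫ x, (1 - χ x) * ((Gw lam x * b x) ^ 2 * ff u x ^ 3 * qq u x))
      + (∫ x, w (phi u x) * rr u x * (η x * om x * b x) ^ 2 *
          (χ x * (c2 * qq u x - sig0 * kk u x)))
    ≤ RHSD μ C ε κ W lam u B η w om + Cu / R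

/-- S-D2: the limit `R → ∞`. -/
def StSD2 : Prop := ∀ CX s3 μ C1 : ℝ, 0 < CX → 0 < s3 → 0 < μ → μ < 1 → 0 < C1 →
  ∃ δ0 c2 C ε0 : ℝ, 0 < δ0 ∧ 0 < c2 ∧ 0 < C ∧ 0 < ε0 ∧ ∀ ε : ℝ, 0 < ε → ε ≤ ε0 →
  ∃ δ1 W0 : ℝ, 0 < δ1 ∧ δ1 ≤ δ0 ∧ 1 ≤ W0 ∧ ∀ W : ℝ, W0 ≤ W → ∃ κ0 : ℝ, 0 < κ0 ∧
  ∀ κ : ℝ, 0 < κ → κ ≤ κ0 → ∃ lam0 : ℝ, 0 < lam0 ∧ ∀ (lam : ℝ) (u : R3 → ℝ) (B : Set R3)
    (η : R3 → ℝ) (w : ℝ → ℝ) (χ om : R3 → ℝ), lam ≤ lam0 → SDat CX s3 δ1 W lam C1 u B η w χ om →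
    Real.sqrt 2 * (∫ s, w s) * (∫ x, (1 - χ x) * (Gw lam x ^ 2 * ff u x ^ 3 * qq u x))
      + (∫ x, w (phi u x) * rr u x * (η x * om x) ^ 2 * (χ x * (c2 * qq u x - sig0 * kk u x)))
    ≤ RHSD μ C ε κ W lam u B η w om

/-- Harnack-type facts used in S-D2, S-D3 (helper283). -/
def StHar1 : Prop := ∀ s : ℝ, 0 < s → ∃ C : ℝ, 0 < C ∧ ∀ u : R3 → ℝ, Sol u → (∀ x, |u x| < 1) →
  ∀ x, |phi u x| ≤ s → qq u x ≤ 1 / 2 → |hh u x| ≤ C * qq u x ∧ a2 u x ≤ C * qq u x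

end Vale.Agent.P134.LI
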