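import Vale.Agent.P134.LI.Defs

/-! P134, package R3: exact statements of the blocks LI1, LI2, LI3, LI4 (note 9779). -/

set_option linter.all false

namespace Vale.Agent.P134.LI

open Vale.Agent.P134 Vale.Agent.P134.SM MeasureTheory Filter Topology

/-- divergence of a vector field. -/
noncomputable def dvg (X : R3 → R3) (x : R3) : ℝ := ∑ i, pd i (fun y => X y i) x

/-- partial derivative in `x_i` of a function of `(x, t)`. -/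
noncomputable def px (i : Fin 3) (Φ : R3 × ℝ → ℝ) (z : R3 × ℝ) : ℝ := pd i (fun y => Φ (y, z.2)) z.1
/-- derivative in `t`. -/
noncomputable def ptt (Φ : R3 × ℝ → ℝ) (z : R3 × ℝ) : ℝ := deriv (fun s => Φ (z.1, s)) z.2

/-- `C D_x Φ`. -/
noncomputable def cdx (u : R3 → ℝ) (Φ : R3 × ℝ → ℝ) (z : R3 × ℝ) : R3 :=
  fun i => ∑ j, cc u i j z.1 z.2 * px j Φ z

/-- LI1 = T1. -/
def StLI1 : Prop := ∀ (u : R3 → ℝ), Sol u → (∀ x, |u x| < 1) → ∀ X : R3 → R3, ContDiff ℝ 1 X →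
  ∀ (x : R3) (t : ℝ), 0 < rr u x →
  rr u x * jj u x t * dvg X (xt u x t)
    = deriv (fun s => rr u x * jj u x s * dot (X (xt u x s)) (nn u x)) t
      + ∑ i, pd i (fun y => rr u y * ∑ j, cc u i j y t * X (xt u y t) j) x

/-- integrated form of T1, for a vector field `X` and a compactly supported density `Ψ`:
`∬ w(φ)|∇φ| { J Ψ (div X)(x~) + J Ψ_t X(x~)·n + (C D_x Ψ)·X(x~) } = 0`. -/
def StLI1int : Prop := ∀ (u : R3 → ℝ), Sol u → (∀ x, |u x| < 1) →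
  ∀ X : R3 → R3, ContDiff ℝ 1 X → ∀ w : ℝ → ℝ, ContDiff ℝ 1 w →
  ∀ Ψ : R3 × ℝ → ℝ, ContDiff ℝ 1 Ψ → HasCompactSupport Ψ → (∀ z ∈ tsupport Ψ, 0 < rr u z.1) →
  ∫ z : R3 × ℝ, w (phi u z.1) * rr u z.1 * (jj u z.1 z.2 * Ψ z * dvg X (xt u z.1 z.2)
      + jj u z.1 z.2 * ptt Ψ z * dot (X (xt u z.1 z.2)) (nn u z.1)
      + dot (cdx u Ψ z) (X (xt u z.1 z.2))) = 0

/-- LI2: stability on the immersed tubes with an ambient weight `χ`. -/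
def StLI2 : Prop := ∀ (u : R3 → ℝ), Sol u → (∀ x, |u x| < 1) →
  ∀ (X : R3 → R3) (R ε : ℝ), ContDiff ℝ 1 X →
  (∀ x ∈ box 3 R, dvg X x + dot (X x) (X x) ≤ VV u x + ε) →
  ∀ w : ℝ → ℝ, ContDiff ℝ 1 w → (∀ s, 0 ≤ w s) →
  ∀ χ : R3 → ℝ, ContDiff ℝ 1 χ → (∀ x, 0 ≤ χ x) →
  ∀ Φ : R3 × ℝ → ℝ, ContDiff ℝ 1 Φ → HasCompactSupport Φ →
  (∀ z ∈ tsupport Φ, 0 < rr u z.1 ∧ 0 < jj u z.1 z.2 ∧ xt u z.1 z.2 ∈ box 3 R) →
  - ∫ z : R3 × ℝ, w (phi u z.1) * rr u z.1 * (jj u z.1 z.2 * Φ z ^ 2 *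
        ∑ i, X (xt u z.1 z.2) i * pd i χ (xt u z.1 z.2))
    ≤ ∫ z : R3 × ℝ, w (phi u z.1) * rr u z.1 * (χ (xt u z.1 z.2) * (jj u z.1 z.2 * ptt Φ z ^ 2
        + esq (cdx u Φ z) / jj u z.1 z.2
        + jj u z.1 z.2 * (VV u (xt u z.1 z.2) + ε) * Φ z ^ 2))

/-- LI3: the ball part. -/
def StLI3 : Prop := ∀ (V : R3 → ℝ), Continuous V → ∀ (X : R3 → R3) (R ε : ℝ), ContDiff ℝ 1 X →
  (∀ x ∈ box 3 R, dvg X x + dot (X x) (X x) ≤ V x + ε) →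
  ∀ β : R3 → ℝ, ContDiff ℝ 1 β → (∀ x, 0 ≤ β x) →
  ∀ a : R3 → ℝ, ContDiff ℝ 1 a → HasCompactSupport a → (∀ x ∈ tsupport a, x ∈ box 3 R) →
  - ∫ x, a x ^ 2 * ∑ i, X x i * pd i β x ≤ ∫ x, β x * (gs a x + (V x + ε) * a x ^ 2)

/-- LI3, the identity for `a = G f`. -/
def StLI3f : Prop := ∀ (u : R3 → ℝ), Sol u → (∀ x, |u x| < 1) →
  ∀ G : R3 → ℝ, ContDiff ℝ 2 G → HasCompactSupport G → ∀ β : R3 → ℝ, ContDiff ℝ 2 β →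
  ∫ x, β x * (gs (fun y => G y * ff u y) x + VV u x * (G x * ff u x) ^ 2)
    = (∫ x, β x * (ff u x ^ 2 * gs G x - Real.sqrt 2 * G x ^ 2 * ff u x ^ 3 * qq u x))
      + (1 / 2) * ∫ x, ff u x ^ 2 * (G x ^ 2 * lap β x + 2 * G x * gg G β x)

end Vale.Agent.P134.LI
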