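import Vale.Agent.P134.LI.T2
import Vale.Agent.P134.H88.SCf

/-! P134, package R3: assembly of `StSD1` from its sub-blocks. -/

set_option linter.all false

namespace Vale.Agent.P134.LI

open Vale.Agent.P134 Vale.Agent.P134.SM MeasureTheory Filter Topology
open Vale.Agent.P134.LI.Fct

lemma abs_sum_le_eno {X : R3} {g : R3} {A M : ℝ} (hX : eno X ≤ A) (hA : 0 ≤ A)
    (hg : ∀ i, |g i| ≤ M) : |∑ i, X i * g i| ≤ 3 * A * M := by
  have h1 : ∀ i : Fin 3, |X i| ≤ A := by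
    intro i
    refine le_trans ?_ hX
    unfold eno
    rw [← Real.sqrt_sq_eq_abs]
    refine Real.sqrt_le_sqrt ?_
    unfold esq
    exact Finset.single_le_sum (f := fun i => X i ^ 2) (fun i _ => sq_nonneg _) (Finset.mem_univ i)
  calc |∑ i, X i * g i| ≤ ∑ i, |X i * g i| := Finset.abs_sum_le_sum_abs _ _
    _ ≤ ∑ _i : Fin 3, A * M := by
        refine Finset.sum_le_sum fun i _ => ?_
        rw [abs_mul]
        exact mul_le_mul (h1 i) (hg i) (abs_nonneg _) hA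
    _ = 3 * A * M := by simp; ring

/-- the final bookkeeping. -/
lemma final_alg {lam W R CX C1 Cp CT1 CT3 CT4 ε ID SG Bm IG μ U1 U2 U3 U4 Z1a Z1b Z2a Z2b
    P1 P2 Q5 I2 I3 : ℝ} (hl0 : 0 < lam) (hW1 : 1 ≤ W) (hR : 1 ≤ R) (hCX : 0 < CX) (hC1 : 0 < C1)
    (hCp : 0 < Cp) (hCT1 : 0 < CT1) (hCT3 : 0 < CT3) (hCT4 : 0 < CT4) (hε : 0 < ε)
    (hID0 : 0 ≤ ID) (hSG0 : 0 ≤ SG) (hBm0 : 0 ≤ Bm)
    (a1 : -(3 * CX * (C1 / W) * (Bm + CT1 * Real.exp (-W) * SG + U1 / R)) ≤ Z1a - Z1b)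
    (a2 : -(3 * (C1 / W) * (Bm + CT1 * Real.exp (-W) * SG + U1 / R)) ≤ Z2a - Z2b)
    (q3 : I2 + P2 ≤ Cp * (1 / W + ε) * ID + U2 / R)
    (q4 : I3 ≤ (1 + μ) * sig0 * IG + CT3 * (1 / W + ε) * ID
      + (CT3 * lam * W ^ 4 + CT3 * Real.exp (-W)) * SG + U3 / R)
    (q5 : Q5 ≤ CT4 * lam * W ^ 4 * SG + U4 / R)
    (hSC : Z1a - Z1b + P1 + 1 / 2 * (Z2a - Z2b) ≤ Q5 + I2 + I3) :
    P1 + P2 ≤ (1 + μ) * sig0 * IG
      + (Cp + CT3 + CT4 + 3 * C1 * (CX + 1) * (CT1 + 1)) * (1 / W + ε) * ID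
      + (Cp + CT3 + CT4 + 3 * C1 * (CX + 1) * (CT1 + 1)) / W * Bm
      + ((Cp + CT3 + CT4 + 3 * C1 * (CX + 1) * (CT1 + 1)) * lam * W ^ 4
        + (Cp + CT3 + CT4 + 3 * C1 * (CX + 1) * (CT1 + 1)) * W ^ 4 * Real.exp (-W)) * SG
      + (U4 + U2 + U3 + 3 * C1 * (CX + 1) * |U1|) / R := by
  have hW0 : 0 < W := by linarith
  have hR0 : 0 < R := by linarith
  set CF : ℝ := Cp + CT3 + CT4 + 3 * C1 * (CX + 1) * (CT1 + 1) with hCFdef
  have hexp : Real.exp (-W) ≤ W ^ 4 * Real.exp (-W) := by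
    have : 1 ≤ W ^ 4 := one_le_pow₀ hW1
    nlinarith [Real.exp_pos (-W)]
  have hU1 : U1 / R ≤ |U1| / R := by gcongr; exact le_abs_self _
  -- assemble
  have e0 : 3 * CX * (C1 / W) * (Bm + CT1 * Real.exp (-W) * SG + U1 / R)
      + 1 / 2 * (3 * (C1 / W) * (Bm + CT1 * Real.exp (-W) * SG + U1 / R))
      ≤ 3 * C1 * (CX + 1) / W * Bm
        + 3 * C1 * (CX + 1) * CT1 * (W ^ 4 * Real.exp (-W)) * SG
        + 3 * C1 * (CX + 1) * |U1| / R := by
    set A := Bm + CT1 * Real.exp (-W) * SG + |U1| / R with hA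
    have hA0 : 0 ≤ A := by positivity
    have hle : Bm + CT1 * Real.exp (-W) * SG + U1 / R ≤ A := by
      rw [hA]; exact add_le_add le_rfl hU1
    have h9 : 3 * CX * (C1 / W) * (Bm + CT1 * Real.exp (-W) * SG + U1 / R)
      + 1 / 2 * (3 * (C1 / W) * (Bm + CT1 * Real.exp (-W) * SG + U1 / R))
      ≤ 3 * C1 * (CX + 1) / W * A := by
      have h10 : 3 * CX * (C1 / W) * (Bm + CT1 * Real.exp (-W) * SG + U1 / R)
        + 1 / 2 * (3 * (C1 / W) * (Bm + CT1 * Real.exp (-W) * SG + U1 / R))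
        = 3 * C1 * (CX + 1 / 2) / W *
          (Bm + CT1 * Real.exp (-W) * SG + U1 / R) := by ring
      rw [h10]
      calc _ ≤ 3 * C1 * (CX + 1 / 2) / W * A :=
            mul_le_mul_of_nonneg_left hle (by positivity)
        _ ≤ 3 * C1 * (CX + 1) / W * A := by
            refine mul_le_mul_of_nonneg_right ?_ hA0
            gcongr
            norm_num
    refine h9.trans ?_
    have h11 : 3 * C1 * (CX + 1) / W * A = 3 * C1 * (CX + 1) / W * Bm
      + 3 * C1 * (CX + 1) / W * (CT1 * Real.exp (-W) * SG) + 3 * C1 * (CX + 1) / W * (|U1| / R) := by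
      rw [hA]; ring
    rw [h11]
    have h12 : 3 * C1 * (CX + 1) / W ≤ 3 * C1 * (CX + 1) := div_le_self (by positivity) hW1
    have h13 : 3 * C1 * (CX + 1) / W * (CT1 * Real.exp (-W) * SG)
        ≤ 3 * C1 * (CX + 1) * CT1 * (W ^ 4 * Real.exp (-W)) * SG := by
      calc _ ≤ 3 * C1 * (CX + 1) * (CT1 * Real.exp (-W) * SG) :=
            mul_le_mul_of_nonneg_right h12 (by positivity)
        _ = 3 * C1 * (CX + 1) * CT1 * SG * Real.exp (-W) := by ring
        _ ≤ 3 * C1 * (CX + 1) * CT1 * SG * (W ^ 4 * Real.exp (-W)) :=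
            mul_le_mul_of_nonneg_left hexp (by positivity)
        _ = _ := by ring
    have h14 : 3 * C1 * (CX + 1) / W * (|U1| / R) ≤ 3 * C1 * (CX + 1) * |U1| / R := by
      calc _ ≤ 3 * C1 * (CX + 1) * (|U1| / R) := mul_le_mul_of_nonneg_right h12 (by positivity)
        _ = _ := by ring
    linarith only [h13, h14]
  have e1 : Cp * (1 / W + ε) * ID + CT3 * (1 / W + ε) * ID ≤ CF * (1 / W + ε) * ID := by
    have : 0 ≤ (CT4 + 3 * C1 * (CX + 1) * (CT1 + 1)) * ((1 / W + ε) * ID) := by positivity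
    have e : CF * (1 / W + ε) * ID = Cp * (1 / W + ε) * ID + CT3 * (1 / W + ε) * ID
      + (CT4 + 3 * C1 * (CX + 1) * (CT1 + 1)) * ((1 / W + ε) * ID) := by rw [hCFdef]; ring
    linarith only [this, e]
  have e2 : 3 * C1 * (CX + 1) / W * Bm ≤ CF / W * Bm := by
    refine mul_le_mul_of_nonneg_right ?_ hBm0
    gcongr
    rw [hCFdef]
    have : 0 ≤ 3 * C1 * (CX + 1) * CT1 := by positivity
    linarith only [this, hCp, hCT3, hCT4, (by ring : 3 * C1 * (CX + 1) * (CT1 + 1) =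
      3 * C1 * (CX + 1) * CT1 + 3 * C1 * (CX + 1))]
  have e3 : 3 * C1 * (CX + 1) * CT1 * (W ^ 4 * Real.exp (-W)) * SG
      + (CT3 * lam * W ^ 4 + CT3 * Real.exp (-W)) * SG + CT4 * lam * W ^ 4 * SG
      ≤ (CF * lam * W ^ 4 + CF * W ^ 4 * Real.exp (-W)) * SG := by
    have f1 : (CT3 * lam * W ^ 4 + CT3 * Real.exp (-W)) * SG
        ≤ (CT3 * lam * W ^ 4 + CT3 * (W ^ 4 * Real.exp (-W))) * SG := by
      refine mul_le_mul_of_nonneg_right ?_ hSG0
      have := mul_le_mul_of_nonneg_left hexp hCT3.le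
      linarith only [this]
    have f2 : (CF * lam * W ^ 4 + CF * W ^ 4 * Real.exp (-W)) * SG
        = 3 * C1 * (CX + 1) * CT1 * (W ^ 4 * Real.exp (-W)) * SG
          + (CT3 * lam * W ^ 4 + CT3 * (W ^ 4 * Real.exp (-W))) * SG + CT4 * lam * W ^ 4 * SG
          + ((Cp + 3 * C1 * (CX + 1) * (CT1 + 1)) * (lam * W ^ 4 * SG)
            + (Cp + CT4 + 3 * C1 * (CX + 1)) * (W ^ 4 * Real.exp (-W) * SG)) := by
      rw [hCFdef]; ring
    rw [f2]
    have f3 : 0 ≤ (Cp + 3 * C1 * (CX + 1) * (CT1 + 1)) * (lam * W ^ 4 * SG)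
            + (Cp + CT4 + 3 * C1 * (CX + 1)) * (W ^ 4 * Real.exp (-W) * SG) := by positivity
    linarith only [f1, f3]
  have e4 : (U4 + U2 + U3 + 3 * C1 * (CX + 1) * |U1|) / R
      = U4 / R + U2 / R + U3 / R + 3 * C1 * (CX + 1) * |U1| / R := by ring
  rw [e4]
  linarith only [a1, a2, q3, q4, q5, hSC, e0, e1, e2, e3]

theorem stSD1_of (hPW : StPW) (hCD : StCDX) (hM : StMIS) (h1 : StT1) (h3 : StT3) (h4 : StT4) :
    StSD1 := by
  intro CX s3 μ C1 hCX hs3 hμ hμ1 hC1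
  obtain ⟨c2, Cw, εw, hc2, hCw, hεw, HW⟩ := hPW (s3 + 1) (by linarith)
  obtain ⟨Cd, εd, hCd, hεd, HD⟩ := hCD (s3 + 1) (μ / 8) (by linarith) (by linarith)
  set Cp : ℝ := Cw * (C1 + 1) + Cd with hCpdef
  have hCp : 0 < Cp := by positivity
  have hCdp : Cd ≤ Cp := by
    have : 0 ≤ Cw * (C1 + 1) := by positivity
    rw [hCpdef]; linarith only [this]
  obtain ⟨CT1, hCT1, H1⟩ := h1 s3 C1 hs3 hC1
  obtain ⟨CT3, W3, hCT3, hW3, H3⟩ := h3 s3 C1 μ Cp hs3 hC1 hμ hμ1 hCp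
  obtain ⟨CT4, hCT4, H4⟩ := h4 s3 C1 hs3 hC1
  have H2 := T2.stT2 s3 C1 hs3 hC1
  set CF : ℝ := Cp + CT3 + CT4 + 3 * C1 * (CX + 1) * (CT1 + 1) with hCFdef
  have hCF : 0 < CF := by positivity
  refine ⟨1, c2, CF, min (min εw εd) (1 / 2), one_pos, hc2, hCF, by positivity, ?_⟩
  intro ε hε hε0
  have hε1 : ε ≤ εw := hε0.trans ((min_le_left _ _).trans (min_le_left _ _))
  have hε2 : ε ≤ εd := hε0.trans ((min_le_left _ _).trans (min_le_right _ _))
  have hε3 : ε ≤ 1 / 2 := hε0.trans (min_le_right _ _)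
  obtain ⟨δw, hδw, HW'⟩ := HW ε hε hε1
  obtain ⟨δd, hδd, HD'⟩ := HD ε hε hε2
  obtain ⟨δM, WM, hδM, hWM, HM⟩ := hM s3 ε hs3 hε (by linarith)
  refine ⟨min (min δw δd) (min δM 1), max (max WM W3) (C1 + 1), by positivity,
    (min_le_right _ _).trans (min_le_right _ _), ?_, ?_⟩
  · exact hW3.trans ((le_max_right _ _).trans (le_max_left _ _))
  intro W hW
  have hWM' : WM ≤ W := ((le_max_left _ _).trans (le_max_left _ _)).trans hW
  have hW3' : W3 ≤ W := ((le_max_right _ _).trans (le_max_left _ _)).trans hW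
  have hWC : C1 + 1 ≤ W := (le_max_right _ _).trans hW
  have hW1 : 1 ≤ W := by linarith
  have hW0 : 0 < W := by linarith
  obtain ⟨κM, hκM, HM'⟩ := HM W hWM'
  refine ⟨min (min κM 1) (min εw εd), by positivity, ?_⟩
  intro κ hκ hκ0
  have hκ1 : κ ≤ κM := hκ0.trans ((min_le_left _ _).trans (min_le_left _ _))
  have hκ2 : κ ≤ 1 := hκ0.trans ((min_le_left _ _).trans (min_le_right _ _))
  have hκ3 : κ ≤ εw := hκ0.trans ((min_le_right _ _).trans (min_le_left _ _))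
  have hκ4 : κ ≤ εd := hκ0.trans ((min_le_right _ _).trans (min_le_right _ _))
  obtain ⟨lM, hlM, HM''⟩ := HM' κ hκ hκ1
  refine ⟨min lM (1 / (20 * W)), by positivity, ?_⟩
  intro lam u B η w χ om hl hS
  have hlM' : lam ≤ lM := hl.trans (min_le_left _ _)
  have hlW : lam * W ≤ 1 / 20 := by
    have := hl.trans (min_le_right _ _)
    calc lam * W ≤ 1 / (20 * W) * W := mul_le_mul_of_nonneg_right this hW0.le
      _ = 1 / 20 := by field_simp
  have hgood : ∀ x, |phi u x| ≤ s3 + 1 → Far B (W / 4) x →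
      qq u x ≤ δw ∧ qq u x ≤ δd ∧ qq u x ≤ δM := by
    intro x hx hF
    have h := hS.good x hx hF
    exact ⟨h.trans ((min_le_left _ _).trans (min_le_left _ _)),
      h.trans ((min_le_left _ _).trans (min_le_right _ _)),
      h.trans ((min_le_right _ _).trans (min_le_left _ _))⟩
  have hu : Sol u := hS.hs.toSol
  have hlt := hS.hs.lt
  obtain ⟨D1, D2, D3⟩ := HD' κ hκ hκ4 u hu hlt
  have hPW' := HW' κ (C1 / W) hκ hκ3 (by positivity) (by rw [div_le_one hW0]; linarith) u hu hlt χ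
    (hS.chi2.of_le (by norm_num)) hS.chib (fun y i => hS.chid y i)
  have hP : PtF s3 (μ / 8) c2 Cp ε κ W u B χ := by
    refine ⟨by linarith, by linarith, hc2, hCp, hε, hε3, hκ, hκ2, ?_, ?_, ?_, ?_⟩
    · intro x hx hF t ht
      exact D1 x hx (hgood x hx hF).2.1 t ht
    · intro x hx hF
      refine (hPW' x hx (hgood x hx hF).1).trans ?_
      have hq : 0 ≤ qq u x + κ ^ 2 := by
        have := H147.qq_nonneg hu hlt x
        positivity
      have : Cw * (C1 / W + ε) ≤ Cp * (1 / W + ε) := by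
        have e1 : Cw * (C1 / W + ε) = Cw * C1 * (1 / W) + Cw * ε := by ring
        have e2 : Cp * (1 / W + ε) = Cw * C1 * (1 / W) + Cw * ε
            + (Cw * (1 / W) + Cd * (1 / W) + (Cw * C1 + Cd) * ε) := by rw [hCpdef]; ring
        rw [e1, e2]
        have : 0 ≤ Cw * (1 / W) + Cd * (1 / W) + (Cw * C1 + Cd) * ε := by positivity
        linarith
      have := mul_le_mul_of_nonneg_right this hq
      linarith
    · intro E hE x hx hF
      refine (D2 E hE χ hS.chi2.continuous hS.chib x hx (hgood x hx hF).2.1).trans ?_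
      have hq := H147.qq_nonneg hu hlt x
      have hC : Cd ≤ Cp := hCdp
      have : Cd * ε * (qq u x + κ ^ 2) * E x ^ 2 ≤ Cp * ε * (qq u x + κ ^ 2) * E x ^ 2 := by
        gcongr
      linarith
    · intro E hE x hx hF t
      refine (D3 E hE x hx (hgood x hx hF).2.1 t).trans ?_
      have hq := H147.qq_nonneg hu hlt x
      have hC : Cd ≤ Cp := hCdp
      refine add_le_add ?_ ?_
      · gcongr
      · split_ifs
        · gcongr
        · exact le_rfl
  have hMis : ∀ v : R3 → ℝ, Measurable v → (∀ x, |v x| ≤ 1) →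
    (∀ x, v x ≠ 0 → Far B W x ∧ ¬ Far B (2 * W) x) →
    |(∫ s, w s) * (∫ x, Gw lam x ^ 2 * ff u x ^ 2 * v x)
      - ∫ x, w (phi u x) * rr u x * (Gw lam x * om x) ^ 2 *
          ∫ t, jj u x t * prf ε κ u x t ^ 2 * v (xt u x t)| ≤ Bmis W lam u B w := by
    intro v hv1 hv2 hv3
    exact HM'' u hS.hs B hS.latt (fun x hx hF => (hgood x hx hF).2.2) lam hS.lam0 hlM' w hS.wc
      hS.wb hS.ws om hS.om2.continuous hS.omb hS.om0 hS.om1 v hv1 hv2 hv3
  obtain ⟨U1, H1'⟩ := H1 CX _ W lam (μ / 8) c2 Cp ε κ u B η w χ om hW1 hlW hS hP hMis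
  obtain ⟨U2, H2'⟩ := H2 CX _ W lam (μ / 8) c2 Cp ε κ u B η w χ om hW1 hlW hS hP
  obtain ⟨U3, H3'⟩ := H3 CX _ W lam c2 ε κ u B η w χ om hW3' hlW hS hP
  obtain ⟨U4, H4'⟩ := H4 CX _ W lam u B η w χ om hW1 hlW hS
  refine ⟨U4 + U2 + U3 + 3 * C1 * (CX + 1) * |U1|, ?_⟩
  intro R b hR hb2 hbb hb1 hb0 hbd hbdd
  have hb : BDat C1 R b := ⟨hR, hb2, hbb, hb1, hb0, hbd, hbdd⟩
  have hR0 : 0 < R := by linarith
  have hdm := dmx_nonneg hS hP
  have hR' : 0 < 2 * R + dmx ε κ + 1 := by positivity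
  obtain ⟨X, hX1, hX2, hX3⟩ := hS.hyp (2 * R + dmx ε κ + 1) (1 / R) hR' (by positivity)
  have hG2 : ContDiff ℝ 2 (fun y => Gw lam y * b y) := (H586.Gw_cd lam).mul hb2
  have hsub : ∀ x, x ∉ {x : R3 | eno x ≤ 2 * R} → Gw lam x * b x = 0 := by
    intro x hx
    simp only [Set.mem_setOf_eq, not_le] at hx
    rw [hb0 x hx.le, mul_zero]
  have hGc : HasCompactSupport (fun y => Gw lam y * b y) :=
    HasCompactSupport.intro (isCompact_eno (2 * R)) hsub
  have hGs : ∀ x ∈ tsupport (fun y => Gw lam y * b y), x ∈ box 3 (2 * R + dmx ε κ + 1) := by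
    intro x hx
    have h5 : x ∈ {x : R3 | eno x ≤ 2 * R} := by
      refine closure_minimal ?_ (isCompact_eno (2 * R)).isClosed hx
      intro y hy
      by_contra hc
      exact hy (hsub y hc)
    exact mem_box_of_eno (le_trans (show eno x ≤ 2 * R from h5) (by linarith))
  have hSC := H88.stSC u hu hlt X (2 * R + dmx ε κ + 1) (1 / R) hX1 hX3 w hS.wc
    (fun s => (hS.wb s).1) (∫ s, w s) (integral_nonneg fun s => (hS.wb s).1) χ hS.chi2 hS.chib
    (fun y => Gw lam y * b y) hG2 hGc hGs (PhE s3 ε κ u η om b) (phe_cd hS hP hs3 hb)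
    (phe_cs hS hP hb) (fun z hz => ⟨(phe_good hS hP hs3 hb hz).1, (phe_good hS hP hs3 hb hz).2,
      (phe_box hS hP hs3 hb hz).2⟩)
  -- the four parts
  have hN1 : 0 < 3 * CX * (C1 / W) := by positivity
  have hN2 : 0 < 3 * (C1 / W) := by positivity
  have hcχ : ∀ i, Continuous (pd i χ) := fun i => continuous_pd (hS.chi2.of_le (by norm_num))
  have q1 := H1' R b hb (3 * CX * (C1 / W)) (fun x => ∑ i, X x i * pd i χ x) hN1
    (continuous_finsetSum _ fun i _ => ((contDiff_pi.mp hX1 i).continuous).mul (hcχ i))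
    (fun x hx => abs_sum_le_eno (g := fun i => pd i χ x) (hX2 x (mem_box_of_eno hx)) hCX.le
      (fun i => hS.chid x i))
    (fun x hx => by
      obtain ⟨i, -, hi⟩ := Finset.exists_ne_zero_of_sum_ne_zero hx
      have h6 := chi_pd hS (i := i) (x := x) (fun h0 => hi (by rw [h0, mul_zero]))
      exact ⟨h6.1, fun h7 => h6.2 (far_mono h7 (by linarith))⟩)
  have q2 := H1' R b hb (3 * (C1 / W)) (fun x => lap χ x) hN2
    (H88.continuous_lap hS.chi2)
    (fun x _ => by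
      unfold lap
      have hle : C1 / W ^ 2 ≤ C1 / W := by
        refine div_le_div_of_nonneg_left hC1.le hW0 ?_
        nlinarith only [hW1]
      calc |∑ i, pd i (pd i χ) x| ≤ ∑ i, |pd i (pd i χ) x| := Finset.abs_sum_le_sum_abs _ _
        _ ≤ ∑ _i : Fin 3, C1 / W := Finset.sum_le_sum fun i _ => (hS.chidd x i i).trans hle
        _ = 3 * (C1 / W) := by simp)
    (fun x hx => chi_lap hS hW0 hx)
  have q3 := H2' R b hb (1 / R) (by positivity) le_rfl
  have q4 := H3' R b hb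
  have q5 := H4' R b hb (1 / R) (by positivity) le_rfl
  have a1 := (abs_le.mp q1).1
  have a2 := (abs_le.mp q2).1
  -- nonnegativity
  set ID : ℝ := ∫ x, w (phi u x) * rr u x * (η x * om x) ^ 2 * (qq u x + κ ^ 2) with hID
  set SG : ℝ := ∑' b : B, Gw lam b ^ 2 with hSG
  set IG : ℝ := ∫ x, w (phi u x) * rr u x * gs η x with hIG
  have hID0 : 0 ≤ ID := integral_nonneg fun x => by
    have h6 := T2.wrr_nonneg hS x
    have h7 := H147.qq_nonneg hu hlt x
    show 0 ≤ w (phi u x) * rr u x * (η x * om x) ^ 2 * (qq u x + κ ^ 2)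
    positivity
  have hSG0 : 0 ≤ SG := tsum_nonneg fun b => sq_nonneg _
  have hBm0 : 0 ≤ Bmis W lam u B w := by
    unfold Bmis
    refine add_nonneg (mul_nonneg (by positivity) (integral_nonneg fun x => ?_))
      (mul_nonneg (by positivity) hSG0)
    have h6 := T2.wrr_nonneg hS x
    have h7 := H147.qq_nonneg hu hlt x
    have h8 : 0 ≤ iA B (W / 2) (3 * W) x := by
      unfold iA; split_ifs <;> norm_num
    show 0 ≤ iA B (W / 2) (3 * W) x * (w (phi u x) * rr u x * qq u x * Gw lam x ^ 2)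
    positivity
  exact final_alg (hS.lam0) hW1 hR hCX hC1 hCp hCT1 hCT3 hCT4 hε hID0 hSG0 hBm0 a1 a2 q3 q4 q5 hSC

end Vale.Agent.P134.LI
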