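import Vale.Agent.P134.LI.Fct1

/-! P134, package R3: the gradient of the amplitude `η ω b`. -/

set_option linter.all false

namespace Vale.Agent.P134.LI.Fct

open Vale.Agent.P134 Vale.Agent.P134.SM Vale.Agent.P134.LI MeasureTheory Filter Topology

variable {ν R r s t M N : ℝ} {η om b : R3 → ℝ} {x : R3}

lemma pd_prod3 (h1 : DifferentiableAt ℝ η x) (h2 : DifferentiableAt ℝ om x)
    (h3 : DifferentiableAt ℝ b x) (i : Fin 3) :
    pd i (fun y => η y * om y * b y) x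
      = om x * b x * pd i η x + η x * (b x * pd i om x + om x * pd i b x) := by
  have h12 : DifferentiableAt ℝ (fun y => η y * om y) x := h1.mul h2
  have e1 : pd i (fun y => (fun y => η y * om y) y * b y) x
      = pd i (fun y => η y * om y) x * b x + η x * om x * pd i b x := by
    rw [pd_mul h12 h3]
    ring
  have e2 : pd i (fun y => η y * om y) x = pd i η x * om x + η x * pd i om x := by
    rw [pd_mul h1 h2]
    ring
  rw [e1, e2]
  ring

/-- `|∇(η ω b)|² ≤ (1 + ν) ω² b² |∇η|² + 2 (1 + 1/ν) η² (|∇ω|² + |∇b|²)`. -/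
lemma gs_prod (hν : 0 < ν) (h1 : DifferentiableAt ℝ η x) (h2 : DifferentiableAt ℝ om x)
    (h3 : DifferentiableAt ℝ b x) (ho : 0 ≤ om x ∧ om x ≤ 1) (hb : 0 ≤ b x ∧ b x ≤ 1) :
    gs (fun y => η y * om y * b y) x
      ≤ (1 + ν) * (om x * b x) ^ 2 * gs η x + 2 * (1 + 1 / ν) * η x ^ 2 * (gs om x + gs b x) := by
  unfold gs
  rw [← Finset.sum_add_distrib, Finset.mul_sum, Finset.mul_sum, ← Finset.sum_add_distrib]
  refine Finset.sum_le_sum fun i _ => ?_
  rw [pd_prod3 h1 h2 h3 i]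
  set p := pd i η x
  set q := pd i om x
  set k := pd i b x
  set e := η x
  set o := om x
  set c := b x
  have a1 : (o * c * p + e * (c * q + o * k)) ^ 2
      ≤ (1 + ν) * (o * c * p) ^ 2 + (1 + 1 / ν) * (e * (c * q + o * k)) ^ 2 := by
    set A := o * c * p
    set D := e * (c * q + o * k)
    have h : 0 ≤ (Real.sqrt ν * A - D / Real.sqrt ν) ^ 2 := sq_nonneg _
    have hs : Real.sqrt ν * Real.sqrt ν = ν := Real.mul_self_sqrt hν.le
    have hs0 : 0 < Real.sqrt ν := Real.sqrt_pos.mpr hν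
    have e1 : (Real.sqrt ν * A - D / Real.sqrt ν) ^ 2 = ν * A ^ 2 - 2 * A * D + 1 / ν * D ^ 2 := by
      have : (Real.sqrt ν * A - D / Real.sqrt ν) ^ 2
          = (Real.sqrt ν * Real.sqrt ν) * A ^ 2 - 2 * A * D * (Real.sqrt ν / Real.sqrt ν)
            + 1 / (Real.sqrt ν * Real.sqrt ν) * D ^ 2 := by
        field_simp
        ring
      rw [this, hs, div_self hs0.ne']
      ring
    nlinarith
  have a2 : (c * q + o * k) ^ 2 ≤ 2 * (q ^ 2 + k ^ 2) := by
    have b1 : (c * q) ^ 2 ≤ q ^ 2 := by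
      rw [mul_pow]
      exact mul_le_of_le_one_left (sq_nonneg _) (pow_le_one₀ hb.1 hb.2)
    have b2 : (o * k) ^ 2 ≤ k ^ 2 := by
      rw [mul_pow]
      exact mul_le_of_le_one_left (sq_nonneg _) (pow_le_one₀ ho.1 ho.2)
    nlinarith [sq_nonneg (c * q - o * k)]
  have a3 : (1 + 1 / ν) * (e * (c * q + o * k)) ^ 2
      ≤ (1 + 1 / ν) * (e ^ 2 * (2 * (q ^ 2 + k ^ 2))) := by
    rw [mul_pow]
    have : 0 ≤ 1 + 1 / ν := by positivity
    exact mul_le_mul_of_nonneg_left (mul_le_mul_of_nonneg_left a2 (sq_nonneg _)) this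
  have e3 : (1 + ν) * (o * c) ^ 2 * p ^ 2 + 2 * (1 + 1 / ν) * e ^ 2 * (q ^ 2 + k ^ 2)
      = (1 + ν) * (o * c * p) ^ 2 + (1 + 1 / ν) * (e ^ 2 * (2 * (q ^ 2 + k ^ 2))) := by ring
  rw [e3]
  linarith

/-- bound of `gs` from a bound of the partial derivatives. -/
lemma gs_le_of_pd {f : R3 → ℝ} (hM : ∀ i, |pd i f x| ≤ M) : gs f x ≤ 3 * M ^ 2 := by
  unfold gs
  have h : ∀ i ∈ (Finset.univ : Finset (Fin 3)), pd i f x ^ 2 ≤ M ^ 2 := fun i _ => by
    rw [← sq_abs]
    exact pow_le_pow_left₀ (abs_nonneg _) (hM i) 2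
  refine (Finset.sum_le_sum h).trans ?_
  simp

/-- the amplitude: `|E| √|∇E|²` for `E = η ω b`. -/
lemma sqrt_gs_prod (h1 : DifferentiableAt ℝ η x) (h2 : DifferentiableAt ℝ om x)
    (h3 : DifferentiableAt ℝ b x) (ho : 0 ≤ om x ∧ om x ≤ 1) (hb : 0 ≤ b x ∧ b x ≤ 1)
    (he : 0 ≤ η x) :
    Real.sqrt (gs (fun y => η y * om y * b y) x)
      ≤ om x * b x * Real.sqrt (gs η x) + η x * (Real.sqrt (gs om x) + Real.sqrt (gs b x)) := by
  have e : ∀ f : R3 → ℝ, Real.sqrt (gs f x) = eno (fun i => pd i f x) := fun f => rfl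
  rw [e, e, e, e]
  have e1 : (fun i => pd i (fun y => η y * om y * b y) x)
      = (om x * b x) • (fun i => pd i η x) + (η x) • (b x • (fun i => pd i om x)
        + om x • (fun i => pd i b x)) := by
    funext i
    rw [pd_prod3 h1 h2 h3 i]
    simp only [Pi.add_apply, Pi.smul_apply, smul_eq_mul]
  have hsm : ∀ (a : ℝ) (v : R3), 0 ≤ a → eno (a • v) = a * eno v := by
    intro a v ha
    unfold eno
    rw [H283.esq_smul, Real.sqrt_mul (sq_nonneg a), Real.sqrt_sq ha]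
  rw [e1]
  refine (H283.eno_add_le _ _).trans (add_le_add ?_ ?_)
  · rw [hsm _ _ (mul_nonneg ho.1 hb.1)]
  · rw [hsm _ _ he]
    refine mul_le_mul_of_nonneg_left ((H283.eno_add_le _ _).trans (add_le_add ?_ ?_)) he
    · rw [hsm _ _ hb.1]
      exact mul_le_of_le_one_left (eno_nonneg _) hb.2
    · rw [hsm _ _ ho.1]
      exact mul_le_of_le_one_left (eno_nonneg _) ho.2

end Vale.Agent.P134.LI.Fct
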