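import Vale.Agent.P134.H790.T3b
import Vale.Agent.P134.LI.Fct2

/-! P134, package R3: block T3a of S-D1 (tangential terms, first half). -/

set_option linter.all false

namespace Vale.Agent.P134.LI.T3a

open Vale.Agent.P134 Vale.Agent.P134.SM Vale.Agent.P134.LI MeasureTheory Filter Topology
open Vale.Agent.P134.LI.Fct

variable {CX s3 δ W lam C1 μ c2 Cp ε κ R ν : ℝ} {u : R3 → ℝ} {B : Set R3} {η : R3 → ℝ} {w : ℝ → ℝ}
  {χ om b : R3 → ℝ} {x : R3} {t : ℝ} {z : R3 × ℝ}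

/-- the weight on the ray, close to the bad points. -/
lemma kint_near (hS : SDat CX s3 δ W lam C1 u B η w χ om) (hW : 0 ≤ W) (hx : |phi u x| ≤ s3)
    (h : ¬ Far B (W / 2) x) :
    ∫ t, χ (xt u x t) * prf ε κ u x t ^ 2 ≤ cG s3 * Real.exp (-(Real.sqrt 2) * W) := by
  have h1 := tail_g1 (s := phi u x) (T := W / 2) hx (by linarith)
  have e : -(2 * Real.sqrt 2) * (W / 2) = -(Real.sqrt 2) * W := by ring
  rw [e] at h1
  refine le_trans ?_ h1
  have hm : MeasurableSet {t : ℝ | W / 2 ≤ |t|} :=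
    (isClosed_le continuous_const continuous_abs).measurableSet
  rw [← integral_indicator hm]
  refine integral_mono_of_nonneg (Eventually.of_forall fun t =>
    mul_nonneg (hS.chib _).1 (sq_nonneg _)) ((integrable_g1_shift _).indicator hm)
    (Eventually.of_forall fun t => ?_)
  by_cases ht : W / 2 ≤ |t|
  · rw [Set.indicator_of_mem (show t ∈ {t : ℝ | W / 2 ≤ |t|} from ht)]
    have h2 := prf_sq_le (ε := ε) (κ := κ) (u := u) x t
    calc χ (xt u x t) * prf ε κ u x t ^ 2 ≤ 1 * prf ε κ u x t ^ 2 :=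
          mul_le_mul_of_nonneg_right (hS.chib _).2 (sq_nonneg _)
      _ ≤ _ := by rw [one_mul]; exact h2
  · have h3 : χ (xt u x t) = 0 := by
      by_contra hne
      have := lt_abs_of_xt_far h (chi_ne hS hne)
      exact ht (by linarith)
    simp only [h3, zero_mul]
    exact Set.indicator_nonneg (fun t _ => sq_nonneg _) t

/-- the pointwise inequality in `x`. -/
lemma outer (hS : SDat CX s3 δ W lam C1 u B η w χ om) (hP : PtF s3 ν c2 Cp ε κ W u B χ)
    (hs : 0 < s3) (hb : BDat C1 R b) (hW : 1 ≤ W) (hC1 : 0 < C1)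
    (hx : |phi u x| < s3) (hE : x ∈ tsupport (EE s3 u η om b)) :
    w (phi u x) * rr u x *
      (∫ t, χ (xt u x t) * (esq (cdx u (PhE s3 ε κ u η om b) (x, t)) / jj u x t))
    ≤ (1 + ν) ^ 2 * sig0 * (w (phi u x) * rr u x * gs η x)
      + 2 * (1 + ν) * (1 + 1 / ν) * (48 * C1 ^ 2 / W ^ 2 * cG s3 * Real.exp (-(Real.sqrt 2) * W))
          * {x | ¬ Far B (W / 2) x}.indicator (fun x => Gw lam x ^ 2) x
      + 2 * (1 + ν) * (1 + 1 / ν) * (3 * C1 ^ 2 / R * sig0) * Gw lam x ^ 2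
      + Cp * ε * (w (phi u x) * rr u x * (η x * om x) ^ 2 * (qq u x + κ ^ 2)) := by
  have hR1 := hb.R1
  have hR : 0 < R := by linarith
  have hW0 : 0 < W := by linarith
  have hν := hP.mu0
  have hCp := hP.C0
  have hε := hP.ep0
  have hsg := sig0_pos
  have hcg := cG_pos s3
  obtain ⟨ha, hfx, -⟩ := ee_tsupport hS hs hb hE
  have hD0 := T2.wrr_nonneg hS x
  have hD1 := T2.wrr_le_one hS x
  have hq := H147.qq_nonneg hS.hs.toSol hS.hs.lt x
  have h1 := hP.cdx2 (EE s3 u η om b) (ee_cd hS hb) x ha hfx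
  have hEE := H790.T3b.ee_sq_le hS hb hs hx
  obtain ⟨hη0, hη1⟩ := hS.etab x
  have hG := H586.Gw_pos lam x
  have hη2 : η x ^ 2 ≤ Gw lam x ^ 2 := pow_le_pow_left₀ hη0 hη1 2
  have hgη := gs_nonneg η x
  obtain ⟨hK0, hK1⟩ := integral_chi_prf_sq_le (ε := ε) (κ := κ) (u := u) hS.chi2.continuous
    hS.chib x
  set K := ∫ t, χ (xt u x t) * prf ε κ u x t ^ 2 with hK
  have d1 : Differentiable ℝ η := hS.eta1.differentiable (by norm_num)
  have d2 : Differentiable ℝ om := hS.om2.differentiable (by norm_num)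
  have d3 : Differentiable ℝ b := hb.b2.differentiable (by norm_num)
  have hgs : gs (EE s3 u η om b) x
      ≤ (1 + ν) * gs η x + 2 * (1 + 1 / ν) * η x ^ 2 * (gs om x + gs b x) := by
    rw [ee_gs hS hs hx]
    refine (gs_prod hν (d1 x) (d2 x) (d3 x) (hS.omb x) (hb.bb x)).trans ?_
    obtain ⟨ho0, ho1⟩ := hS.omb x
    obtain ⟨hb0, hb1⟩ := hb.bb x
    have : (om x * b x) ^ 2 ≤ 1 := by
      refine pow_le_one₀ (mul_nonneg ho0 hb0) ?_
      calc om x * b x ≤ 1 * 1 := mul_le_mul ho1 hb1 hb0 one_pos.le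
        _ = 1 := by ring
    have h2 : (1 + ν) * (om x * b x) ^ 2 * gs η x ≤ (1 + ν) * 1 * gs η x := by gcongr
    linarith
  have hgb : gs b x ≤ 3 * C1 ^ 2 / R := by
    refine (gs_le_of_pd (hb.bd x)).trans ?_
    have : C1 ^ 2 / R ^ 2 ≤ C1 ^ 2 / R := by
      refine div_le_div_of_nonneg_left (by positivity) hR ?_
      nlinarith
    calc 3 * (C1 / R) ^ 2 = 3 * (C1 ^ 2 / R ^ 2) := by rw [div_pow]
      _ ≤ 3 * (C1 ^ 2 / R) := by linarith
      _ = _ := by ring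
  have hgo : gs om x * K ≤ 48 * C1 ^ 2 / W ^ 2 * cG s3 * Real.exp (-(Real.sqrt 2) * W)
      * {x | ¬ Far B (W / 2) x}.indicator (fun _ => (1:ℝ)) x := by
    by_cases h0 : gs om x = 0
    · rw [h0, zero_mul]
      have := Set.indicator_nonneg (s := {x | ¬ Far B (W / 2) x})
        (f := fun _ : R3 => (1:ℝ)) (fun _ _ => zero_le_one) x
      positivity
    · have hnf := (om_gs hS h0).2
      rw [Set.indicator_of_mem (show x ∈ {x | ¬ Far B (W / 2) x} from hnf), mul_one]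
      have hk := kint_near (ε := ε) (κ := κ) hS hW0.le hx.le hnf
      have ho : gs om x ≤ 48 * C1 ^ 2 / W ^ 2 := by
        refine (gs_le_of_pd (hS.omd x)).trans (le_of_eq ?_)
        ring
      calc gs om x * K ≤ 48 * C1 ^ 2 / W ^ 2 * (cG s3 * Real.exp (-(Real.sqrt 2) * W)) :=
            mul_le_mul ho hk hK0 (by positivity)
        _ = _ := by ring
  set D := w (phi u x) * rr u x with hD
  set c := 2 * (1 + 1 / ν) with hc
  have hc0 : 0 < c := by positivity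
  have hind : {x | ¬ Far B (W / 2) x}.indicator (fun x => Gw lam x ^ 2) x
      = Gw lam x ^ 2 * {x | ¬ Far B (W / 2) x}.indicator (fun _ => (1:ℝ)) x := by
    by_cases hm : x ∈ {x | ¬ Far B (W / 2) x}
    · rw [Set.indicator_of_mem hm, Set.indicator_of_mem hm, mul_one]
    · rw [Set.indicator_of_notMem hm, Set.indicator_of_notMem hm, mul_zero]
  have hmul := mul_le_mul_of_nonneg_left h1 hD0
  refine hmul.trans ?_
  -- split
  have t1 : D * ((1 + ν) * gs (EE s3 u η om b) x * K)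
      ≤ (1 + ν) ^ 2 * sig0 * (D * gs η x)
        + (1 + ν) * c * (Gw lam x ^ 2 * (gs om x * K))
        + (1 + ν) * c * (Gw lam x ^ 2 * (3 * C1 ^ 2 / R * sig0)) := by
    have s1 : D * ((1 + ν) * gs (EE s3 u η om b) x * K)
        ≤ D * ((1 + ν) * ((1 + ν) * gs η x + c * η x ^ 2 * (gs om x + gs b x)) * K) := by
      gcongr
    have hgo0 := gs_nonneg om x
    have hgb0 := gs_nonneg b x
    have s2 : D * ((1 + ν) * ((1 + ν) * gs η x + c * η x ^ 2 * (gs om x + gs b x)) * K)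
        = (1 + ν) ^ 2 * (D * gs η x) * K + (1 + ν) * c * (D * (η x ^ 2 * (gs om x * K)))
          + (1 + ν) * c * (D * (η x ^ 2 * (gs b x * K))) := by ring
    have s3' : (1 + ν) ^ 2 * (D * gs η x) * K ≤ (1 + ν) ^ 2 * (D * gs η x) * sig0 := by
      gcongr
    have s4 : D * (η x ^ 2 * (gs om x * K)) ≤ 1 * (Gw lam x ^ 2 * (gs om x * K)) := by
      gcongr
    have s5 : D * (η x ^ 2 * (gs b x * K)) ≤ 1 * (Gw lam x ^ 2 * (3 * C1 ^ 2 / R * sig0)) := by
      gcongr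
    have s6 : (1 + ν) * c * (D * (η x ^ 2 * (gs om x * K)))
        ≤ (1 + ν) * c * (1 * (Gw lam x ^ 2 * (gs om x * K))) := by gcongr
    have s7 : (1 + ν) * c * (D * (η x ^ 2 * (gs b x * K)))
        ≤ (1 + ν) * c * (1 * (Gw lam x ^ 2 * (3 * C1 ^ 2 / R * sig0))) := by gcongr
    have s8 : (1 + ν) ^ 2 * (D * gs η x) * sig0 = (1 + ν) ^ 2 * sig0 * (D * gs η x) := by ring
    linarith
  have t2 : (1 + ν) * c * (Gw lam x ^ 2 * (gs om x * K))
      ≤ (1 + ν) * c * (Gw lam x ^ 2 * (48 * C1 ^ 2 / W ^ 2 * cG s3 *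
        Real.exp (-(Real.sqrt 2) * W)
        * {x | ¬ Far B (W / 2) x}.indicator (fun _ => (1:ℝ)) x)) := by
    refine mul_le_mul_of_nonneg_left (mul_le_mul_of_nonneg_left hgo (sq_nonneg _)) (by positivity)
  have t3 : D * (Cp * ε * (qq u x + κ ^ 2) * EE s3 u η om b x ^ 2)
      ≤ Cp * ε * (D * (η x * om x) ^ 2 * (qq u x + κ ^ 2)) := by
    calc D * (Cp * ε * (qq u x + κ ^ 2) * EE s3 u η om b x ^ 2)
        = Cp * ε * (D * EE s3 u η om b x ^ 2 * (qq u x + κ ^ 2)) := by ring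
      _ ≤ _ := by gcongr
  rw [hind, mul_add]
  have e1 : 2 * (1 + ν) * (1 + 1 / ν) = (1 + ν) * c := by rw [hc]; ring
  rw [e1]
  have e2 : (1 + ν) * c * (48 * C1 ^ 2 / W ^ 2 * cG s3 * Real.exp (-(Real.sqrt 2) * W))
      * (Gw lam x ^ 2 * {x | ¬ Far B (W / 2) x}.indicator (fun _ => (1:ℝ)) x)
      = (1 + ν) * c * (Gw lam x ^ 2 * (48 * C1 ^ 2 / W ^ 2 * cG s3 *
        Real.exp (-(Real.sqrt 2) * W)
        * {x | ¬ Far B (W / 2) x}.indicator (fun _ => (1:ℝ)) x)) := by ring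
  have e3 : (1 + ν) * c * (3 * C1 ^ 2 / R * sig0) * Gw lam x ^ 2
      = (1 + ν) * c * (Gw lam x ^ 2 * (3 * C1 ^ 2 / R * sig0)) := by ring
  rw [e2, e3]
  linarith

lemma near_le {I2 S : ℝ} (hlam : 0 ≤ lam) (hWp : 0 ≤ W) (hlW : lam * W ≤ 1 / 20) (hS0 : 0 ≤ S)
    (f2 : I2 ≤ 8 * (W / 2) ^ 3 * Real.exp (2 * lam * (W / 2)) * S) : I2 ≤ 2 * W ^ 3 * S := by
  refine f2.trans ?_
  have := H790.T3b.exp_le_two (y := 2 * lam * (W / 2)) (by nlinarith)
  calc 8 * (W / 2) ^ 3 * Real.exp (2 * lam * (W / 2)) * S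
      ≤ 8 * (W / 2) ^ 3 * 2 * S := by gcongr
    _ = _ := by ring

/-- the final arithmetic. -/
lemma arith {cν cg sg e1 e2 S Dd N IG I2 : ℝ} (hμ : 0 < μ) (hμ1 : μ < 1) (hWp : 0 < W)
    (hR : 0 < R) (hep : 0 < ε) (hCp : 0 < Cp) (hC1 : 0 < C1) (hsg : 0 < sg) (hc : 0 < cg)
    (hS0 : 0 ≤ S) (hD0 : 0 ≤ Dd) (hN0 : 0 ≤ N) (he10 : 0 ≤ e1) (he20 : 0 ≤ e2)
    (he : W * e2 ≤ 5 / 2 * e1) (g2 : I2 ≤ 2 * W ^ 3 * S)
    (hcν : cν = 2 * (1 + μ / 8) * (1 + 1 / (μ / 8))) :
    (1 + μ / 8) ^ 2 * sg * N + cν * (48 * C1 ^ 2 / W ^ 2 * cg * e2) * I2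
      + cν * (3 * C1 ^ 2 / R * sg) * IG + Cp * ε * Dd
    ≤ (1 + μ / 2) * sg * N + (Cp + 240 * cν * C1 ^ 2 * cg) * (1 / W + ε) * Dd
      + (Cp + 240 * cν * C1 ^ 2 * cg) * e1 * S + cν * (3 * C1 ^ 2 * sg) * IG / R := by
  have hcν0 : 0 < cν := by rw [hcν]; positivity
  have r1 : (1 + μ / 8) ^ 2 * sg * N ≤ (1 + μ / 2) * sg * N := by
    have : (1 + μ / 8) ^ 2 ≤ 1 + μ / 2 := by nlinarith only [hμ, hμ1]
    gcongr
  have r2 : cν * (48 * C1 ^ 2 / W ^ 2 * cg * e2) * I2 ≤ 240 * cν * C1 ^ 2 * cg * e1 * S := by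
    calc cν * (48 * C1 ^ 2 / W ^ 2 * cg * e2) * I2
        ≤ cν * (48 * C1 ^ 2 / W ^ 2 * cg * e2) * (2 * W ^ 3 * S) := by gcongr
      _ = 96 * cν * C1 ^ 2 * cg * (W * e2) * S := by field_simp; ring
      _ ≤ 96 * cν * C1 ^ 2 * cg * (5 / 2 * e1) * S := by gcongr
      _ = _ := by ring
  have r3 : cν * (3 * C1 ^ 2 / R * sg) * IG = cν * (3 * C1 ^ 2 * sg) * IG / R := by ring
  have r4 : Cp * ε * Dd ≤ (Cp + 240 * cν * C1 ^ 2 * cg) * (1 / W + ε) * Dd := by
    have h1 : Cp * ε ≤ (Cp + 240 * cν * C1 ^ 2 * cg) * (1 / W + ε) := by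
      have h2 : 0 ≤ Cp * (1 / W) + 240 * cν * C1 ^ 2 * cg * (1 / W + ε) := by positivity
      have h3 : (Cp + 240 * cν * C1 ^ 2 * cg) * (1 / W + ε)
        = Cp * ε + (Cp * (1 / W) + 240 * cν * C1 ^ 2 * cg * (1 / W + ε)) := by ring
      linarith only [h2, h3]
    exact mul_le_mul_of_nonneg_right h1 hD0
  have r5 : 240 * cν * C1 ^ 2 * cg * e1 * S ≤ (Cp + 240 * cν * C1 ^ 2 * cg) * e1 * S := by
    have : 0 ≤ Cp * e1 * S := by positivity
    have h3 : (Cp + 240 * cν * C1 ^ 2 * cg) * e1 * S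
      = Cp * e1 * S + 240 * cν * C1 ^ 2 * cg * e1 * S := by ring
    linarith only [this, h3]
  rw [r3]
  linarith only [r1, r2, r4, r5]

theorem stT3a : StT3a := by
  intro s3 C1 μ Cp hs3 hC1 hμ hμ1 hCp
  have hc := cG_pos s3
  have hsg := sig0_pos
  set ν := μ / 8 with hν
  have hν0 : 0 < ν := by positivity
  set cν := 2 * (1 + ν) * (1 + 1 / ν) with hcν
  have hcν0 : 0 < cν := by positivity
  refine ⟨Cp + 240 * cν * C1 ^ 2 * cG s3, 1, by positivity, le_rfl, ?_⟩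
  intro CX δ W lam c2 ε κ u B η w χ om hW hlW hS hP
  have hWp : 0 < W := by linarith
  have hlam := hS.lam0
  have hlam20 : lam ≤ 1 / 20 := by nlinarith
  have hG : Integrable (fun x => Gw lam x ^ 2) := H586.int_Gw_sq hS.lam0
  have hep := hP.ep0
  obtain ⟨-, -, -, -, -, -, hfar, -⟩ := H586.stGw lam hlam (by linarith)
  refine ⟨cν * (3 * C1 ^ 2 * sig0) * ∫ x, Gw lam x ^ 2, fun R b hb => ?_⟩
  have hR : 0 < R := lt_of_lt_of_le one_pos hb.R1
  have iF := H88.int_T3a hS hP hs3 hb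
  set F : R3 × ℝ → ℝ := fun z => w (phi u z.1) * rr u z.1 *
        (χ (xt u z.1 z.2) * (esq (cdx u (PhE s3 ε κ u η om b) z) / jj u z.1 z.2)) with hF
  have hfub : ∫ z, F z = ∫ x, ∫ t, F (x, t) := integral_prod F iF
  have iI : Integrable fun x => ∫ t, F (x, t) := iF.integral_prod_left
  have iD := T2.int_D (κ := κ) hS
  have iN := H790.T3b.int_N hS
  have i2 : Integrable ({x | ¬ Far B (W / 2) x}.indicator fun x => Gw lam x ^ 2) :=
    hG.indicator (measurableSet_not_far B (W / 2))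
  have key : ∀ x, (∫ t, F (x, t))
      ≤ (1 + ν) ^ 2 * sig0 * (w (phi u x) * rr u x * gs η x)
      + cν * (48 * C1 ^ 2 / W ^ 2 * cG s3 * Real.exp (-(Real.sqrt 2) * W))
          * {x | ¬ Far B (W / 2) x}.indicator (fun x => Gw lam x ^ 2) x
      + cν * (3 * C1 ^ 2 / R * sig0) * Gw lam x ^ 2
      + Cp * ε * (w (phi u x) * rr u x * (η x * om x) ^ 2 * (qq u x + κ ^ 2)) := by
    intro x
    have hw0 := T2.wrr_nonneg hS x
    have hq := H147.qq_nonneg hS.hs.toSol hS.hs.lt x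
    have hgη := gs_nonneg η x
    have n2 := Set.indicator_nonneg (s := {x | ¬ Far B (W / 2) x})
      (f := fun x => Gw lam x ^ 2) (fun x _ => sq_nonneg _) x
    have hFx : ∀ t, F (x, t) = w (phi u x) * rr u x *
      (χ (xt u x t) * (esq (cdx u (PhE s3 ε κ u η om b) (x, t)) / jj u x t)) := fun t => rfl
    rw [integral_congr_ae (Eventually.of_forall hFx), integral_const_mul]
    by_cases hw : w (phi u x) = 0
    · rw [hw]; simp only [zero_mul, mul_zero, add_zero]; positivity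
    have hx : |phi u x| < s3 := w_ne hS hw
    by_cases hE : x ∈ tsupport (EE s3 u η om b)
    · exact outer hS hP hs3 hb hW hC1 hx hE
    · have h0 : ∀ t, χ (xt u x t) * (esq (cdx u (PhE s3 ε κ u η om b) (x, t)) / jj u x t) = 0 := by
        intro t
        have hz : (x, t) ∉ tsupport (PhE s3 ε κ u η om b) := by
          intro hz
          apply hE
          have hcl : IsClosed {z : R3 × ℝ | z.1 ∈ tsupport (EE s3 u η om b)} :=
            (isClosed_tsupport _).preimage continuous_fst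
          have : tsupport (PhE s3 ε κ u η om b) ⊆ {z : R3 × ℝ | z.1 ∈ tsupport (EE s3 u η om b)} := by
            refine closure_minimal (fun y hy => ?_) hcl
            refine subset_tsupport _ ?_
            intro h0
            exact hy (by unfold PhE; rw [h0, zero_mul])
          exact this hz
        have e0 : esq (cdx u (PhE s3 ε κ u η om b) (x, t)) = 0 := by
          rw [cdx_zero hz]; simp [esq]
        rw [e0]; ring
      rw [integral_congr_ae (Eventually.of_forall h0)]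
      simp only [integral_zero, mul_zero]
      positivity
  have j1 := iN.const_mul ((1 + ν) ^ 2 * sig0)
  have j2 := i2.const_mul (cν * (48 * C1 ^ 2 / W ^ 2 * cG s3 * Real.exp (-(Real.sqrt 2) * W)))
  have j3 := hG.const_mul (cν * (3 * C1 ^ 2 / R * sig0))
  have j4 := iD.const_mul (Cp * ε)
  have hint := integral_mono iI (((j1.add j2).add j3).add j4) key
  have a1 := integral_add ((j1.add j2).add j3) j4
  have a2 := integral_add (j1.add j2) j3
  have a3 := integral_add j1 j2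
  simp only [Pi.add_apply] at a1 a2 a3 hint
  rw [a2, a3] at a1
  rw [integral_const_mul, integral_const_mul, integral_const_mul, integral_const_mul,
      integral_indicator (measurableSet_not_far B (W / 2))] at a1
  have hS0 : 0 ≤ ∑' b : B, Gw lam b ^ 2 := tsum_nonneg fun b => sq_nonneg _
  have hD0 : 0 ≤ ∫ x, w (phi u x) * rr u x * (η x * om x) ^ 2 * (qq u x + κ ^ 2) := by
    refine integral_nonneg fun x => ?_
    have h1 := T2.wrr_nonneg hS x
    have h2 := H147.qq_nonneg hS.hs.toSol hS.hs.lt x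
    positivity
  have hN0 : 0 ≤ ∫ x, w (phi u x) * rr u x * gs η x := by
    refine integral_nonneg fun x => ?_
    have h1 := T2.wrr_nonneg hS x
    have h2 := gs_nonneg η x
    positivity
  have f2 := hfar B hS.latt (W / 2) (by positivity)
  have hfin := hint.trans (le_of_eq a1)
  refine (hfub.trans_le hfin).trans ?_
  set S := ∑' b : B, Gw lam b ^ 2 with hSdef
  set Dd := ∫ x, w (phi u x) * rr u x * (η x * om x) ^ 2 * (qq u x + κ ^ 2) with hDdef
  set N := ∫ x, w (phi u x) * rr u x * gs η x with hNdef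
  set IG := ∫ x, Gw lam x ^ 2 with hIGdef
  set I2 := ∫ x in {x | ¬ Far B (W / 2) x}, Gw lam x ^ 2 with hI2
  have g2 : I2 ≤ 2 * W ^ 3 * S := near_le hlam.le hWp.le hlW hS0 f2
  have he := H790.T3b.W_exp hWp.le
  exact arith hμ hμ1 hWp hR hep hCp hC1 hsg hc hS0 hD0 hN0 (Real.exp_pos _).le (Real.exp_pos _).le
    he g2 rfl

end Vale.Agent.P134.LI.T3a
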