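import Vale.Agent.P134.LI.SD1def
import Vale.Agent.P134.H88.Tube
import Vale.Agent.P134.H88.Prf
import Vale.Agent.P134.H147.Ray
import Vale.Agent.P134.H283.Low

/-! P134, package R3: facts shared by the sub-blocks T1, T2, T3, T4 of `StSD1`. -/

set_option linter.all false

namespace Vale.Agent.P134.LI.Fct

open Vale.Agent.P134 Vale.Agent.P134.SM Vale.Agent.P134.LI MeasureTheory Filter Topology

variable {CX s3 δ W lam C1 μ c2 Cp ε κ R r s t : ℝ} {u : R3 → ℝ} {B : Set R3} {η : R3 → ℝ}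
  {w : ℝ → ℝ} {χ om b : R3 → ℝ} {x y : R3} {z : R3 × ℝ}

/-! ### the cut-off `wt` -/

lemma wt_den (h : 0 < s3) : 0 < (s3 + 1) ^ 2 - s3 ^ 2 := by nlinarith

lemma wt_contDiff (s3 : ℝ) (m : ℕ) : ContDiff ℝ m (wt s3) := by
  unfold wt
  exact Real.smoothTransition.contDiff.comp
    ((contDiff_const.sub (contDiff_id.pow 2)).div_const _)

lemma wt_one (h0 : 0 < s3) (h : |s| ≤ s3) : wt s3 s = 1 := by
  unfold wt
  refine Real.smoothTransition.one_of_one_le ?_
  rw [le_div_iff₀ (wt_den h0)]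
  have : s ^ 2 ≤ s3 ^ 2 := sq_le_sq' (abs_le.mp h).1 (abs_le.mp h).2
  linarith

lemma wt_zero (h0 : 0 < s3) (h : s3 + 1 ≤ |s|) : wt s3 s = 0 := by
  unfold wt
  refine Real.smoothTransition.zero_of_nonpos ?_
  refine div_nonpos_of_nonpos_of_nonneg ?_ (wt_den h0).le
  have : (s3 + 1) ^ 2 ≤ s ^ 2 := by
    rw [← sq_abs s]; exact pow_le_pow_left₀ (by linarith) h 2
  linarith

lemma wt_nonneg (s3 s : ℝ) : 0 ≤ wt s3 s := Real.smoothTransition.nonneg _
lemma wt_le_one (s3 s : ℝ) : wt s3 s ≤ 1 := Real.smoothTransition.le_one _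

/-! ### `Far`, `xt` -/

lemma isClosed_far (B : Set R3) (r : ℝ) : IsClosed {x | Far B r x} := by
  have : {x | Far B r x} = ⋂ b ∈ B, {x | r ≤ eno (x - b)} := by
    ext x; simp [Far]
  rw [this]
  exact isClosed_biInter fun b _ =>
    isClosed_le continuous_const (continuous_eno.comp (continuous_id.sub continuous_const))

lemma measurableSet_far (B : Set R3) (r : ℝ) : MeasurableSet {x | Far B r x} :=
  (isClosed_far B r).measurableSet

lemma measurableSet_not_far (B : Set R3) (r : ℝ) : MeasurableSet {x | ¬ Far B r x} :=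
  (measurableSet_far B r).compl

lemma eno_xt_sub (u : R3 → ℝ) (x : R3) (t : ℝ) : eno (xt u x t - x) ≤ |t| := H147.eno_nn_le u x t

lemma eno_tri' (x y z : R3) : eno (x - z) ≤ eno (x - y) + eno (y - z) := by
  have := H283.eno_add_le (x - y) (y - z)
  simpa using this

lemma eno_comm' (x y : R3) : eno (x - y) = eno (y - x) := by
  unfold eno esq
  congr 1
  exact Finset.sum_congr rfl fun i _ => by simp only [Pi.sub_apply]; ring

lemma eno_xt_le (u : R3 → ℝ) (x : R3) (t : ℝ) : eno (xt u x t) ≤ eno x + |t| := by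
  have h := H283.eno_add_le (xt u x t - x) x
  rw [sub_add_cancel] at h
  linarith [eno_xt_sub u x t]

lemma far_mono (h : Far B r x) (hs : s ≤ r) : Far B s x := fun b hb => hs.trans (h b hb)

lemma far_of_near (h : Far B r y) (hd : eno (y - x) ≤ s) : Far B (r - s) x := by
  intro b hb
  have h1 := h b hb
  have h2 := eno_tri' y x b
  linarith

lemma far_of_xt (h : Far B r (xt u x t)) : Far B (r - |t|) x :=
  far_of_near h (eno_xt_sub u x t)

lemma xt_far (h : Far B r x) : Far B (r - |t|) (xt u x t) :=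
  far_of_near h (by rw [eno_comm']; exact eno_xt_sub u x t)

lemma not_far_xt (h : ¬ Far B r (xt u x t)) : ¬ Far B (r + |t|) x := by
  intro h2
  apply h
  have := xt_far (u := u) (t := t) h2
  rwa [add_sub_cancel_right] at this

lemma not_far_of_xt (h : ¬ Far B r x) : ¬ Far B (r + |t|) (xt u x t) := by
  intro h2
  apply h
  have := far_of_xt h2
  rwa [add_sub_cancel_right] at this

/-- if `x` is at distance `≥ r` and `x + tn` at distance `< s` then `|t| > r - s`. -/
lemma lt_abs_of_far (h : Far B r x) (h2 : ¬ Far B s (xt u x t)) : r - s < |t| := by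
  by_contra hc
  push Not at hc
  exact h2 (far_mono (xt_far (u := u) (t := t) h) (by linarith))

/-- if `x` is at distance `< r` and `x + tn` at distance `≥ s` then `|t| > s - r`. -/
lemma lt_abs_of_xt_far (h : ¬ Far B r x) (h2 : Far B s (xt u x t)) : s - r < |t| := by
  by_contra hc
  push Not at hc
  exact h (far_mono (far_of_xt h2) (by linarith))

lemma mem_box_of_eno (h : eno x ≤ R) : x ∈ box 3 R := by
  rw [mem_box]
  intro i
  have h1 : |x i| ≤ eno x := by
    unfold eno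
    refine Real.abs_le_sqrt ?_
    unfold esq
    exact Finset.single_le_sum (f := fun i => x i ^ 2) (fun j _ => sq_nonneg _) (Finset.mem_univ i)
  exact h1.trans h

/-- if `f = c` off `{Far B r}` then `∂f = 0` there. -/
lemma pd_of_not_far {f : R3 → ℝ} {c : ℝ} (hf : ∀ x, ¬ Far B r x → f x = c) (h : ¬ Far B r x)
    (i : Fin 3) : pd i f x = 0 := by
  have e : f =ᶠ[𝓝 x] fun _ => c := by
    filter_upwards [(isClosed_far B r).isOpen_compl.mem_nhds h] with y hy
    exact hf y hy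
  rw [pd_congr e, pd_const]

/-- if `f = c` on `{Far B r}` then `∂f = 0` on `{Far B s}`, `r < s`. -/
lemma pd_of_far {f : R3 → ℝ} {c : ℝ} (hf : ∀ x, Far B r x → f x = c) (hrs : r < s)
    (h : Far B s x) (i : Fin 3) : pd i f x = 0 := by
  have e : f =ᶠ[𝓝 x] fun _ => c := by
    have h1 : ∀ᶠ y in 𝓝 x, eno (x - y) < s - r := by
      have h2 : Continuous fun y : R3 => eno (x - y) :=
        continuous_eno.comp (continuous_const.sub continuous_id)
      refine h2.continuousAt.eventually_lt continuousAt_const ?_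
      simp only [sub_self]
      have : eno (0 : R3) = 0 := by simp [eno, esq]
      rw [this]; linarith
    filter_upwards [h1] with y hy
    exact hf y (far_mono (far_of_near h hy.le) (by linarith))
  rw [pd_congr e, pd_const]

/-- at a maximum the gradient vanishes. -/
lemma pd_of_max {f : R3 → ℝ} (h : ∀ y, f y ≤ f x) (i : Fin 3) : pd i f x = 0 := by
  unfold pd
  have : IsLocalMax f x := Eventually.of_forall h
  rw [this.fderiv_eq_zero]; simp

/-! ### `χ` and `ω` -/

section SD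

variable (hS : SDat CX s3 δ W lam C1 u B η w χ om)

include hS

lemma chi_pd {i : Fin 3} (h : pd i χ x ≠ 0) : Far B W x ∧ ¬ Far B (7 / 4 * W) x := by
  constructor
  · by_contra hc; exact h (pd_of_not_far hS.chi0 hc i)
  · intro hc
    refine h (pd_of_max (fun y => ?_) i)
    rw [hS.chi1 x hc]; exact (hS.chib y).2

lemma chi_pdd (hW : 0 < W) {i j : Fin 3} (h : pd i (pd j χ) x ≠ 0) :
    Far B W x ∧ ¬ Far B (2 * W) x := by
  constructor
  · by_contra hc
    exact h (pd_of_not_far (fun y hy => pd_of_not_far hS.chi0 hy j) hc i)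
  · intro hc
    refine h (pd_of_far (r := 15 / 8 * W) (s := 2 * W) (c := 0) (fun y hy => ?_) (by linarith) hc i)
    exact pd_of_far (r := 7 / 4 * W) (s := 15 / 8 * W) (c := 1) hS.chi1 (by linarith) hy j

lemma chi_lap (hW : 0 < W) (h : lap χ x ≠ 0) : Far B W x ∧ ¬ Far B (2 * W) x := by
  unfold lap at h
  obtain ⟨i, -, hi⟩ := Finset.exists_ne_zero_of_sum_ne_zero h
  exact chi_pdd hS hW hi

lemma chi_gs (h : gs χ x ≠ 0) : Far B W x ∧ ¬ Far B (7 / 4 * W) x := by
  unfold gs at h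
  obtain ⟨i, -, hi⟩ := Finset.exists_ne_zero_of_sum_ne_zero h
  exact chi_pd hS (i := i) (fun h0 => hi (by rw [h0]; ring))

lemma om_pd {i : Fin 3} (h : pd i om x ≠ 0) : Far B (W / 4) x ∧ ¬ Far B (W / 2) x := by
  constructor
  · by_contra hc; exact h (pd_of_not_far hS.om0 hc i)
  · intro hc
    refine h (pd_of_max (fun y => ?_) i)
    rw [hS.om1 x hc]; exact (hS.omb y).2

lemma om_gs (h : gs om x ≠ 0) : Far B (W / 4) x ∧ ¬ Far B (W / 2) x := by
  unfold gs at h
  obtain ⟨i, -, hi⟩ := Finset.exists_ne_zero_of_sum_ne_zero h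
  exact om_pd hS (i := i) (fun h0 => hi (by rw [h0]; ring))

lemma chi_ne (h : χ x ≠ 0) : Far B W x := by
  by_contra hc; exact h (hS.chi0 x hc)

lemma chi_ne_one (h : 1 - χ x ≠ 0) : ¬ Far B (7 / 4 * W) x := by
  intro hc; exact h (by rw [hS.chi1 x hc]; ring)

lemma om_ne (h : om x ≠ 0) : Far B (W / 4) x := by
  by_contra hc; exact h (hS.om0 x hc)

lemma hu : Sol u := hS.hs.toSol
lemma hl : ∀ x, |u x| < 1 := hS.hs.lt

lemma w_ne (h : w (phi u x) ≠ 0) : |phi u x| < s3 := by
  by_contra hc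
  push Not at hc
  exact h (hS.ws _ hc)

end SD

/-! ### the depth -/

section PT

variable (hS : SDat CX s3 δ W lam C1 u B η w χ om) (hP : PtF s3 μ c2 Cp ε κ W u B χ)

include hP in
lemma geo0 (h1 : |phi u x| ≤ s3 + 1) (h2 : Far B (W / 4) x) (h3 : |t| ≤ dep ε κ u x + 1) :
    0 < rr u x ∧ 0 < jj u x t := by
  have h := hP.geo x h1 h2 t h3
  have := hP.mu1
  exact ⟨by linarith [h.1], by linarith [h.2.1]⟩

include hS hP in
lemma dep_le_dmx (x : R3) : dep ε κ u x ≤ dmx ε κ :=
  H88.dep_le hS.hs.toSol hS.hs.lt hP.ep0 hP.ka0 x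

include hS hP in
lemma dep_nonneg (x : R3) : 0 ≤ dep ε κ u x := by
  have hu := hS.hs.toSol
  have hl := hS.hs.lt
  unfold dep
  refine div_nonneg (Real.log_nonneg ?_) (by positivity)
  have h1 := H88.dep_arg_pos (u := u) hu hl hP.ep0 hP.ka0 x
  rw [le_div_iff₀ h1]
  have h2 := H147.qq_le_one u x
  have h3 : κ ^ 2 ≤ 1 := pow_le_one₀ hP.ka0.le hP.ka1
  nlinarith [H147.qq_nonneg hu hl x, hP.ep1, hP.ep0]

include hS hP in
lemma dmx_nonneg : 0 ≤ dmx ε κ := (dep_nonneg hS hP 0).trans (dep_le_dmx hS hP 0)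

include hS hP in
/-- at good points `rr > 1/2` (take `t = 0` in `geo`). -/
lemma rr_half (h1 : |phi u x| ≤ s3 + 1) (h2 : Far B (W / 4) x) : 1 / 2 < rr u x := by
  refine (hP.geo x h1 h2 0 ?_).1
  have := dep_nonneg hS hP x
  simp only [abs_zero]; linarith

include hS hP in
lemma dep_pos (h1 : |phi u x| ≤ s3 + 1) (h2 : Far B (W / 4) x) : 0 < dep ε κ u x :=
  H88.dep_pos' hS.hs.toSol hS.hs.lt hP.ep0 hP.ep1 hP.ka0 hP.ka1
    (by linarith [rr_half hS hP h1 h2])

include hS hP in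
lemma dep_cd (m : ℕ) : ContDiff ℝ m (dep ε κ u) :=
  H88.dep_contDiff hS.hs.toSol hS.hs.lt hP.ep0 hP.ka0 m

include hS hP in
/-- `prf` is smooth jointly near every good base point. -/
lemma prf_cda (m : ℕ) (h1 : |phi u z.1| ≤ s3 + 1) (h2 : Far B (W / 4) z.1) :
    ContDiffAt ℝ m (fun z : R3 × ℝ => prf ε κ u z.1 z.2) z :=
  H88.prf_cda hS.hs.toSol hS.hs.lt hP.ep0 hP.ep1 hP.ka0 hP.ka1 m
    (by linarith [rr_half hS hP h1 h2])

include hS hP in
lemma prf_cd_t (m : ℕ) (h1 : |phi u x| ≤ s3 + 1) (h2 : Far B (W / 4) x) :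
    ContDiff ℝ m (prf ε κ u x) :=
  H88.prf_cda_t hS.hs.toSol hS.hs.lt hP.ep0 hP.ep1 hP.ka0 hP.ka1 m
    (by linarith [rr_half hS hP h1 h2])

include hS hP in
lemma prf_continuous : Continuous (fun z : R3 × ℝ => prf ε κ u z.1 z.2) :=
  H88.prf_continuous hS.hs.toSol hS.hs.lt hP.ep0 hP.ka0

lemma prf_zero (h : dep ε κ u x + 1 ≤ |t|) : prf ε κ u x t = 0 := H88.prf_zero h
lemma prf_nonneg (x : R3) (t : ℝ) : 0 ≤ prf ε κ u x t := H88.prf_nonneg x t
lemma prf_le (x : R3) (t : ℝ) : prf ε κ u x t ≤ g1 (phi u x + t) := H88.prf_le x t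

/-! ### the amplitude `EE` -/

include hS in
lemma ee_cd (hb : BDat C1 R b) : ContDiff ℝ 1 (EE s3 u η om b) := by
  unfold EE
  exact ((hS.eta1.mul (hS.om2.of_le (by norm_num))).mul (hb.b2.of_le (by norm_num))).mul
    ((wt_contDiff s3 1).comp (by exact_mod_cast H88.phi_contDiff hS.hs.toSol hS.hs.lt 1))

lemma ee_eq (hs : 0 < s3) (h : |phi u x| ≤ s3) : EE s3 u η om b x = η x * om x * b x := by
  unfold EE; rw [wt_one hs h, mul_one]

include hS in
lemma ee_ev (hs : 0 < s3) (h : |phi u x| < s3) :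
    EE s3 u η om b =ᶠ[𝓝 x] fun y => η y * om y * b y := by
  have hc : Continuous (phi u) := (H88.phi_contDiff hS.hs.toSol hS.hs.lt 0).continuous
  filter_upwards [hc.abs.continuousAt.eventually_lt continuousAt_const h] with y hy
  exact ee_eq hs hy.le

include hS in
lemma ee_gs (hs : 0 < s3) (h : |phi u x| < s3) :
    gs (EE s3 u η om b) x = gs (fun y => η y * om y * b y) x := by
  unfold gs
  exact Finset.sum_congr rfl fun i _ => by rw [pd_congr (ee_ev hS hs h)]

include hS in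
lemma ee_tsupport (hs : 0 < s3) (hb : BDat C1 R b) (h : x ∈ tsupport (EE s3 u η om b)) :
    |phi u x| ≤ s3 + 1 ∧ Far B (W / 4) x ∧ eno x ≤ 2 * R := by
  have hc : Continuous (phi u) := (H88.phi_contDiff hS.hs.toSol hS.hs.lt 0).continuous
  have hcl : IsClosed {x : R3 | |phi u x| ≤ s3 + 1 ∧ Far B (W / 4) x ∧ eno x ≤ 2 * R} := by
    have h1 : IsClosed {x : R3 | |phi u x| ≤ s3 + 1} := isClosed_le hc.abs continuous_const
    have h3 : IsClosed {x : R3 | eno x ≤ 2 * R} := isClosed_le continuous_eno continuous_const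
    exact h1.inter ((isClosed_far B (W / 4)).inter h3)
  have hsub : Function.support (EE s3 u η om b)
      ⊆ {x : R3 | |phi u x| ≤ s3 + 1 ∧ Far B (W / 4) x ∧ eno x ≤ 2 * R} := by
    intro y hy
    have hy' : η y * om y * b y * wt s3 (phi u y) ≠ 0 := hy
    refine ⟨?_, ?_, ?_⟩
    · by_contra hc2
      push Not at hc2
      exact hy' (by rw [wt_zero hs hc2.le, mul_zero])
    · by_contra hc2
      exact hy' (by rw [hS.om0 y hc2]; ring)
    · by_contra hc2
      push Not at hc2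
      exact hy' (by rw [hb.b0 y hc2.le]; ring)
  exact closure_minimal hsub hcl h

lemma isCompact_eno (R : ℝ) : IsCompact {x : R3 | eno x ≤ R} := by
  have h1 : IsClosed {x : R3 | eno x ≤ R} := isClosed_le continuous_eno continuous_const
  refine (isCompact_Icc (a := fun _ : Fin 3 => -R) (b := fun _ : Fin 3 => R)).of_isClosed_subset
    h1 ?_
  intro x hx
  exact mem_box_of_eno hx

include hS in
lemma ee_cs (hb : BDat C1 R b) : HasCompactSupport (EE s3 u η om b) := by
  refine HasCompactSupport.intro (isCompact_eno (2 * R)) (fun x hx => ?_)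
  simp only [Set.mem_setOf_eq, not_le] at hx
  unfold EE
  rw [hb.b0 x hx.le]; ring

/-! ### the test function `PhE` -/

include hS hP in
lemma phe_supp (hs : 0 < s3) (hb : BDat C1 R b) (h : z ∈ tsupport (PhE s3 ε κ u η om b)) :
    |phi u z.1| ≤ s3 + 1 ∧ Far B (W / 4) z.1 ∧ eno z.1 ≤ 2 * R ∧ |z.2| ≤ dep ε κ u z.1 + 1 := by
  have hc : Continuous (phi u) := (H88.phi_contDiff hS.hs.toSol hS.hs.lt 0).continuous
  have hd : Continuous (dep ε κ u) := (dep_cd hS hP 0).continuous
  have hcl : IsClosed {z : R3 × ℝ | z.1 ∈ tsupport (EE s3 u η om b) ∧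
      |z.2| ≤ dep ε κ u z.1 + 1} := by
    have h1 : IsClosed {z : R3 × ℝ | z.1 ∈ tsupport (EE s3 u η om b)} :=
      (isClosed_tsupport _).preimage continuous_fst
    have h2 : IsClosed {z : R3 × ℝ | |z.2| ≤ dep ε κ u z.1 + 1} :=
      isClosed_le continuous_snd.abs ((hd.comp continuous_fst).add continuous_const)
    exact h1.inter h2
  have hsub : Function.support (PhE s3 ε κ u η om b)
      ⊆ {z : R3 × ℝ | z.1 ∈ tsupport (EE s3 u η om b) ∧ |z.2| ≤ dep ε κ u z.1 + 1} := by
    intro y hy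
    have hy' : EE s3 u η om b y.1 * prf ε κ u y.1 y.2 ≠ 0 := hy
    refine ⟨subset_tsupport _ (left_ne_zero_of_mul hy'), ?_⟩
    by_contra hc2
    push Not at hc2
    exact right_ne_zero_of_mul hy' (prf_zero hc2.le)
  have h2 := closure_minimal hsub hcl h
  have h3 := ee_tsupport hS hs hb h2.1
  exact ⟨h3.1, h3.2.1, h3.2.2, h2.2⟩

include hS hP in
lemma phe_good (hs : 0 < s3) (hb : BDat C1 R b) (h : z ∈ tsupport (PhE s3 ε κ u η om b)) :
    0 < rr u z.1 ∧ 0 < jj u z.1 z.2 := by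
  obtain ⟨h1, h2, -, h3⟩ := phe_supp hS hP hs hb h
  exact geo0 hP h1 h2 h3

include hS hP in
/-- the point `x + t n` stays in the box of size `2R + dmx + 1`. -/
lemma phe_box (hs : 0 < s3) (hb : BDat C1 R b) (h : z ∈ tsupport (PhE s3 ε κ u η om b)) :
    eno (xt u z.1 z.2) ≤ 2 * R + dmx ε κ + 1 ∧ xt u z.1 z.2 ∈ box 3 (2 * R + dmx ε κ + 1) := by
  obtain ⟨-, -, h2, h3⟩ := phe_supp hS hP hs hb h
  have h4 := eno_xt_le u z.1 z.2
  have h5 := dep_le_dmx hS hP z.1
  have h6 : eno (xt u z.1 z.2) ≤ 2 * R + dmx ε κ + 1 := by linarith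
  exact ⟨h6, mem_box_of_eno h6⟩

include hS hP in
lemma phe_cs (hb : BDat C1 R b) : HasCompactSupport (PhE s3 ε κ u η om b) := by
  refine HasCompactSupport.intro ((isCompact_eno (2 * R)).prod
    (isCompact_Icc (a := -(dmx ε κ + 1)) (b := dmx ε κ + 1))) (fun z hz => ?_)
  rw [Set.mem_prod, not_and_or] at hz
  unfold PhE
  rcases hz with h | h
  · simp only [Set.mem_setOf_eq, not_le] at h
    unfold EE
    rw [hb.b0 z.1 h.le]; ring
  · have h1 : dmx ε κ + 1 < |z.2| := by
      by_contra hc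
      push Not at hc
      exact h ⟨(abs_le.mp hc).1, (abs_le.mp hc).2⟩
    rw [prf_zero (by linarith [dep_le_dmx hS hP z.1]), mul_zero]

include hS hP in
lemma phe_cd (hs : 0 < s3) (hb : BDat C1 R b) : ContDiff ℝ 1 (PhE s3 ε κ u η om b) := by
  rw [contDiff_iff_contDiffAt]
  intro z
  by_cases h : z.1 ∈ tsupport (EE s3 u η om b)
  · obtain ⟨h1, h2, -⟩ := ee_tsupport hS hs hb h
    unfold PhE
    exact (((ee_cd hS hb).comp contDiff_fst).contDiffAt).mul
      (by exact_mod_cast prf_cda hS hP 1 h1 h2)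
  · have e : PhE s3 ε κ u η om b =ᶠ[𝓝 z] fun _ => 0 := by
      have h1 : ∀ᶠ y : R3 × ℝ in 𝓝 z, y.1 ∉ tsupport (EE s3 u η om b) :=
        ((isClosed_tsupport _).isOpen_compl.preimage continuous_fst).mem_nhds h
      filter_upwards [h1] with y hy
      unfold PhE
      rw [image_eq_zero_of_notMem_tsupport hy, zero_mul]
    exact contDiffAt_const.congr_of_eventuallyEq e

lemma ptt_phe : ptt (PhE s3 ε κ u η om b) z = EE s3 u η om b z.1 * deriv (prf ε κ u z.1) z.2 := by
  unfold ptt PhE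
  simp only
  rw [deriv_const_mul_field]

/-- `w(φ) ≠ 0`: near `z` the test function is `η ω b prf`. -/
lemma phe_ev (hS : SDat CX s3 δ W lam C1 u B η w χ om) (hs : 0 < s3) (h : |phi u z.1| < s3) :
    PhE s3 ε κ u η om b =ᶠ[𝓝 z] fun z => η z.1 * om z.1 * b z.1 * prf ε κ u z.1 z.2 := by
  have h1 : ∀ᶠ y : R3 × ℝ in 𝓝 z, |phi u y.1| < s3 := by
    have hc : Continuous (phi u) := (H88.phi_contDiff hS.hs.toSol hS.hs.lt 0).continuous
    exact (hc.comp continuous_fst).abs.continuousAt.eventually_lt continuousAt_const h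
  filter_upwards [h1] with y hy
  unfold PhE
  rw [ee_eq hs hy.le]

/-! ### Fubini -/

omit hP in
include hS in
lemma phi_cd (m : ℕ) : ContDiff ℝ m (phi u) := H88.phi_contDiff hS.hs.toSol hS.hs.lt m

include hS hP in
/-- continuity of all building blocks at the points of `tsupport PhE`. -/
lemma cb (hs : 0 < s3) (hb : BDat C1 R b) (h : z ∈ tsupport (PhE s3 ε κ u η om b)) :
    H88.CB u z :=
  H88.cb (phi_cd hS) (phe_good hS hP hs hb h).1

include hS hP in
lemma xt_cont (hs : 0 < s3) (hb : BDat C1 R b) (h : z ∈ tsupport (PhE s3 ε κ u η om b))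
    {g : R3 → ℝ} (hg : Continuous g) : ContinuousAt (fun z : R3 × ℝ => g (xt u z.1 z.2)) z :=
  ContinuousAt.comp (g := g) hg.continuousAt (cb hS hP hs hb h).xt

include hS hP in
lemma cdx_cont (hs : 0 < s3) (hb : BDat C1 R b) (h : z ∈ tsupport (PhE s3 ε κ u η om b))
    (i : Fin 3) : ContinuousAt (fun z => cdx u (PhE s3 ε κ u η om b) z i) z := by
  unfold cdx
  exact tendsto_finset_sum _ fun k _ => ((cb hS hP hs hb h).c i k).mul
    (H88.continuous_px (phe_cd hS hP hs hb) k).continuousAt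

lemma cdx_zero {Φ : R3 × ℝ → ℝ} (h : z ∉ tsupport Φ) : cdx u Φ z = 0 := by
  funext i
  unfold cdx
  simp [H88.px_zero h]

lemma ptt_zero {Φ : R3 × ℝ → ℝ} (h : z ∉ tsupport Φ) : ptt Φ z = 0 := H88.ptt_zero h

include hS hP in
lemma ptt_cont (hs : 0 < s3) (hb : BDat C1 R b) : Continuous (ptt (PhE s3 ε κ u η om b)) :=
  H88.continuous_ptt (phe_cd hS hP hs hb)

include hS hP in
lemma px_cont (hs : 0 < s3) (hb : BDat C1 R b) (i : Fin 3) :
    Continuous (px i (PhE s3 ε κ u η om b)) :=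
  H88.continuous_px (phe_cd hS hP hs hb) i

include hS hP in
/-- Fubini for integrands which are continuous at the points of `tsupport PhE` and vanish
elsewhere. -/
lemma fub (hb : BDat C1 R b) {F : R3 × ℝ → ℝ}
    (h1 : ∀ z ∈ tsupport (PhE s3 ε κ u η om b), ContinuousAt F z)
    (h2 : ∀ z, z ∉ tsupport (PhE s3 ε κ u η om b) → F z = 0) :
    Integrable F ∧ (∫ z, F z = ∫ x, ∫ t, F (x, t)) ∧ Integrable (fun x => ∫ t, F (x, t)) := by
  have hI : Integrable F := H88.integrable_of_loc (phe_cs hS hP hb) h1 h2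
  have hI' : Integrable F ((volume : Measure R3).prod (volume : Measure ℝ)) := by
    rwa [← Measure.volume_eq_prod]
  refine ⟨hI, ?_, hI'.integral_prod_left⟩
  rw [Measure.volume_eq_prod]
  exact integral_prod F hI'

include hS in
/-- the factor `w(φ)|∇φ|` is continuous at the points of `tsupport PhE`. -/
lemma wr_cont (hP : PtF s3 μ c2 Cp ε κ W u B χ) (hs : 0 < s3) (hb : BDat C1 R b)
    (h : z ∈ tsupport (PhE s3 ε κ u η om b)) :
    ContinuousAt (fun z : R3 × ℝ => w (phi u z.1) * rr u z.1) z :=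
  (ContinuousAt.comp (g := w) hS.wc.continuousAt (cb hS hP hs hb h).ph).mul
    (cb hS hP hs hb h).r

end PT

end Vale.Agent.P134.LI.Fct
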