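import Vale.Agent.P134.LI.Fct
import Vale.Agent.P134.H88.SD2
import Vale.Agent.P134.H586.StGw

/-! P134, package R3: block T2 of S-D1 (longitudinal terms). -/

set_option linter.all false

namespace Vale.Agent.P134.LI.T2

open Vale.Agent.P134 Vale.Agent.P134.SM Vale.Agent.P134.LI MeasureTheory Filter Topology
open Vale.Agent.P134.LI.Fct

variable {CX s3 δ W lam C1 μ c2 Cp ε κ R : ℝ} {u : R3 → ℝ} {B : Set R3} {η : R3 → ℝ} {w : ℝ → ℝ}
  {χ om b : R3 → ℝ} {x : R3} {t : ℝ} {z : R3 × ℝ}

lemma xt_cont (u : R3 → ℝ) (x : R3) : Continuous (fun t => xt u x t) := by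
  unfold xt
  fun_prop

lemma jj_cont (u : R3 → ℝ) (x : R3) : Continuous (fun t => jj u x t) := by
  unfold jj
  fun_prop

lemma prf_cs (hP : PtF s3 μ c2 Cp ε κ W u B χ) (x : R3) :
    HasCompactSupport (prf ε κ u x) := by
  refine HasCompactSupport.intro (K := Set.Icc (-(dep ε κ u x + 1)) (dep ε κ u x + 1))
    isCompact_Icc fun t ht => prf_zero ?_
  by_contra h
  push Not at h
  exact ht (abs_le.mp h.le)

/-- the inner integral, at fixed `x`. -/
lemma inner_le (hS : SDat CX s3 δ W lam C1 u B η w χ om) (hP : PtF s3 μ c2 Cp ε κ W u B χ)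
    {e : ℝ} (he0 : 0 ≤ e) (hx : |phi u x| ≤ s3 + 1) (hF : Far B (W / 4) x) :
    ∫ t, (χ (xt u x t) * (jj u x t * (deriv (prf ε κ u x) t ^ 2
              + (VV u (xt u x t) + e) * prf ε κ u x t ^ 2))
          + jj u x t * (prf ε κ u x t * deriv (prf ε κ u x) t) *
            ∑ i, nn u x i * pd i χ (xt u x t))
    ≤ χ x * (sig0 * kk u x - c2 * qq u x) + Cp * (1 / W + ε) * (qq u x + κ ^ 2)
      + e * (4 * (dmx ε κ + 1)) := by
  have hu : Sol u := hS.hs.toSol
  have h1 := hS.hs.lt
  have hp : ContDiff ℝ 1 (prf ε κ u x) := by exact_mod_cast prf_cd_t hS hP 1 hx hF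
  have hc := prf_cs hP x
  have hpc : Continuous (prf ε κ u x) := hp.continuous
  have hdc : Continuous (deriv (prf ε κ u x)) := hp.continuous_deriv le_rfl
  have hdcs : HasCompactSupport (deriv (prf ε κ u x)) := hc.deriv
  have hxt := xt_cont u x
  have hj := jj_cont u x
  have hχ : Continuous fun t => χ (xt u x t) := hS.chi2.continuous.comp hxt
  have hV : Continuous fun t => VV u (xt u x t) := (H88.VV_continuous hu).comp hxt
  have hD : Continuous fun t => ∑ i, nn u x i * pd i χ (xt u x t) :=
    continuous_finsetSum _ fun i _ => continuous_const.mul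
      ((continuous_pd (hS.chi2.of_le (by norm_num))).comp hxt)
  have i1 : Integrable fun t => χ (xt u x t) * (jj u x t * (deriv (prf ε κ u x) t ^ 2
      + VV u (xt u x t) * prf ε κ u x t ^ 2)) := by
    refine Continuous.integrable_of_hasCompactSupport
      (hχ.mul (hj.mul ((hdc.pow 2).add (hV.mul (hpc.pow 2))))) ?_
    refine HasCompactSupport.intro (K := tsupport (prf ε κ u x)) hc fun t ht => ?_
    have h0 := image_eq_zero_of_notMem_tsupport ht
    have h0' : deriv (prf ε κ u x) t = 0 := by
      by_contra hne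
      exact ht (support_deriv_subset (Function.mem_support.mpr hne))
    simp [h0, h0']
  have i2 : Integrable fun t => jj u x t * deriv (fun s => prf ε κ u x s ^ 2) t *
        ∑ i, nn u x i * pd i χ (xt u x t) := by
    have e2 : (fun t => deriv (fun s => prf ε κ u x s ^ 2) t)
        = fun t => 2 * prf ε κ u x t * deriv (prf ε κ u x) t := by
      funext t
      have := ((hp.differentiable (by norm_num)) t).hasDerivAt.pow 2
      have h2 := this.deriv
      simp only [Nat.cast_ofNat, Nat.add_one_sub_one, pow_one] at h2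
      exact h2
    have : (fun t => jj u x t * deriv (fun s => prf ε κ u x s ^ 2) t *
        ∑ i, nn u x i * pd i χ (xt u x t)) = fun t => jj u x t * (2 * prf ε κ u x t *
          deriv (prf ε κ u x) t) * ∑ i, nn u x i * pd i χ (xt u x t) := by
      funext t; rw [congrFun e2 t]
    rw [this]
    refine Continuous.integrable_of_hasCompactSupport
      ((hj.mul ((continuous_const.mul hpc).mul hdc)).mul hD) ?_
    refine HasCompactSupport.intro (K := tsupport (prf ε κ u x)) hc fun t ht => ?_
    have h0 := image_eq_zero_of_notMem_tsupport ht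
    simp [h0]
  have i3 : Integrable fun t => χ (xt u x t) * (jj u x t * prf ε κ u x t ^ 2) := by
    refine Continuous.integrable_of_hasCompactSupport (hχ.mul (hj.mul (hpc.pow 2))) ?_
    refine HasCompactSupport.intro (K := tsupport (prf ε κ u x)) hc fun t ht => ?_
    have h0 := image_eq_zero_of_notMem_tsupport ht
    simp [h0]
  have e2 : ∀ t, deriv (fun s => prf ε κ u x s ^ 2) t
        = 2 * prf ε κ u x t * deriv (prf ε κ u x) t := by
    intro t
    have := ((hp.differentiable (by norm_num)) t).hasDerivAt.pow 2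
    have h2 := this.deriv
    simp only [Nat.cast_ofNat, Nat.add_one_sub_one, pow_one] at h2
    exact h2
  have heq : ∫ t, (χ (xt u x t) * (jj u x t * (deriv (prf ε κ u x) t ^ 2
              + (VV u (xt u x t) + e) * prf ε κ u x t ^ 2))
          + jj u x t * (prf ε κ u x t * deriv (prf ε κ u x) t) *
            ∑ i, nn u x i * pd i χ (xt u x t))
      = ((∫ t, χ (xt u x t) * (jj u x t * (deriv (prf ε κ u x) t ^ 2
          + VV u (xt u x t) * prf ε κ u x t ^ 2)))
        + (1 / 2) * (∫ t, jj u x t * deriv (fun s => prf ε κ u x s ^ 2) t *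
        ∑ i, nn u x i * pd i χ (xt u x t)))
        + e * ∫ t, χ (xt u x t) * (jj u x t * prf ε κ u x t ^ 2) := by
    have s1 := integral_add i1 (i2.const_mul (1 / 2))
    have s2 := integral_add (i1.add (i2.const_mul (1 / 2))) (i3.const_mul e)
    simp only [Pi.add_apply] at s2
    rw [← integral_const_mul, ← integral_const_mul, ← s1, ← s2]
    refine integral_congr_ae (Eventually.of_forall fun t => ?_)
    simp only []
    rw [e2 t]
    ring
  rw [heq]
  have hpw := hP.pw x hx hF
  have h3 : ∫ t, χ (xt u x t) * (jj u x t * prf ε κ u x t ^ 2) ≤ 4 * (dmx ε κ + 1) := by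
    have hd := dep_le_dmx hS hP x
    have hd0 := dep_nonneg hS hP x
    have hle : ∀ t, χ (xt u x t) * (jj u x t * prf ε κ u x t ^ 2)
        ≤ (Set.Icc (-(dmx ε κ + 1)) (dmx ε κ + 1)).indicator (fun _ => (2:ℝ)) t := by
      intro t
      by_cases ht : |t| ≤ dep ε κ u x + 1
      · have hin : t ∈ Set.Icc (-(dmx ε κ + 1)) (dmx ε κ + 1) :=
          abs_le.mp (ht.trans (by linarith))
        rw [Set.indicator_of_mem hin]
        obtain ⟨-, ha, hb⟩ := hP.geo x hx hF t ht
        have hm0 := hP.mu0
        have hm := hP.mu1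
        have hp0 := prf_nonneg (ε := ε) (κ := κ) (u := u) x t
        have hp1 := prf_le (ε := ε) (κ := κ) (u := u) x t
        have hg : g1 (phi u x + t) ≤ 1 := by
          unfold g1
          have h2 : (1:ℝ) ≤ Real.sqrt 2 := H147.r2_one_le
          rw [div_le_one (by positivity)]
          nlinarith [sq_nonneg (g0 (phi u x + t))]
        have hsq : prf ε κ u x t ^ 2 ≤ 1 := by nlinarith
        obtain ⟨hc0, hc1⟩ := hS.chib (xt u x t)
        have hjp : 0 ≤ jj u x t := by linarith
        have : jj u x t * prf ε κ u x t ^ 2 ≤ 2 := by nlinarith [sq_nonneg (prf ε κ u x t)]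
        have h0 : 0 ≤ jj u x t * prf ε κ u x t ^ 2 := by positivity
        nlinarith
      · push Not at ht
        rw [prf_zero ht.le]
        simp only [ne_eq, OfNat.ofNat_ne_zero, not_false_eq_true, zero_pow, mul_zero]
        exact Set.indicator_nonneg (fun _ _ => by norm_num) _
    have hi : Integrable ((Set.Icc (-(dmx ε κ + 1)) (dmx ε κ + 1)).indicator (fun _ => (2:ℝ))) :=
      (integrable_indicator_iff measurableSet_Icc).mpr
        (integrableOn_const (by simp [Real.volume_Icc]))
    have hint : ∫ t, (Set.Icc (-(dmx ε κ + 1)) (dmx ε κ + 1)).indicator (fun _ => (2:ℝ)) t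
        = 4 * (dmx ε κ + 1) := by
      rw [integral_indicator measurableSet_Icc, setIntegral_const]
      simp only [Measure.real, Real.volume_Icc, smul_eq_mul]
      rw [ENNReal.toReal_ofReal (by linarith)]
      ring
    calc _ ≤ ∫ t, (Set.Icc (-(dmx ε κ + 1)) (dmx ε κ + 1)).indicator (fun _ => (2:ℝ)) t :=
          integral_mono i3 hi hle
      _ = _ := hint
  have := mul_le_mul_of_nonneg_left h3 he0
  linarith

/-- A function which is continuous at the points of a compact set `K` and vanishes off `K` is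
integrable. -/
lemma integrable_of_loc3 {K : Set R3} (hK : IsCompact K) {G : R3 → ℝ}
    (h1 : ∀ z ∈ K, ContinuousAt G z) (h2 : ∀ z, z ∉ K → G z = 0) : Integrable G := by
  have hc : Continuous G := by
    rw [continuous_iff_continuousAt]
    intro z
    by_cases hz : z ∈ K
    · exact h1 z hz
    · have e : G =ᶠ[𝓝 z] fun _ => 0 := by
        filter_upwards [hK.isClosed.isOpen_compl.mem_nhds hz] with y hy
        exact h2 y hy
      exact continuousAt_const.congr e.symm
  exact hc.integrable_of_hasCompactSupport (HasCompactSupport.intro hK h2)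

lemma gs_pos_of_rr (h : 0 < rr u x) : 0 < gs (phi u) x := by
  have := wn_sq (phi u) x
  have h' : 0 < wn (phi u) x := h
  nlinarith

lemma w_zero_or (hS : SDat CX s3 δ W lam C1 u B η w χ om) (x : R3) :
    w (phi u x) = 0 ∨ |phi u x| < s3 := by
  by_cases h : |phi u x| < s3
  · exact Or.inr h
  · exact Or.inl (hS.ws _ (not_lt.mp h))

lemma eta_om_sq_le (hS : SDat CX s3 δ W lam C1 u B η w χ om) (x : R3) :
    (η x * om x) ^ 2 ≤ Gw lam x ^ 2 := by
  obtain ⟨h1, h2⟩ := hS.etab x
  obtain ⟨h3, h4⟩ := hS.omb x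
  have : η x * om x ≤ Gw lam x := by nlinarith
  have h5 : 0 ≤ η x * om x := mul_nonneg h1 h3
  nlinarith

lemma wrr_nonneg (hS : SDat CX s3 δ W lam C1 u B η w χ om) (x : R3) :
    0 ≤ w (phi u x) * rr u x := mul_nonneg (hS.wb _).1 (H147.rr_nonneg u x)

lemma wrr_le_one (hS : SDat CX s3 δ W lam C1 u B η w χ om) (x : R3) :
    w (phi u x) * rr u x ≤ 1 := by
  have h1 := (hS.wb (phi u x)).2
  have h2 := H147.rr_le_one hS.hs.toSol hS.hs.lt x
  have h3 := (hS.wb (phi u x)).1
  have h4 := H147.rr_nonneg u x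
  nlinarith

lemma meas_wrr (hS : SDat CX s3 δ W lam C1 u B η w χ om) :
    Measurable fun x => w (phi u x) * rr u x :=
  ((hS.wc.comp (H147.phi_contDiff hS.hs.toSol hS.hs.lt 0).continuous).measurable).mul
    (H88.meas_rr u)

/-- integrability of the D-level term. -/
lemma int_D (hS : SDat CX s3 δ W lam C1 u B η w χ om) :
    Integrable fun x => w (phi u x) * rr u x * (η x * om x) ^ 2 * (qq u x + κ ^ 2) := by
  have hG : Integrable (fun x => Gw lam x ^ 2) := H586.int_Gw_sq hS.lam0
  refine (hG.const_mul (1 + κ ^ 2)).mono' ?_ (Eventually.of_forall fun x => ?_)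
  · exact (((meas_wrr hS).mul ((hS.eta1.continuous.mul hS.om2.continuous).measurable.pow_const 2)).mul
      ((H88.meas_qq u).add_const _)).aestronglyMeasurable
  · have h1 := wrr_nonneg hS x
    have h2 := wrr_le_one hS x
    have h3 := eta_om_sq_le hS x
    have h4 := H147.qq_nonneg hS.hs.toSol hS.hs.lt x
    have h5 := H147.qq_le_one u x
    have h6 : 0 ≤ (η x * om x) ^ 2 := sq_nonneg _
    rw [Real.norm_eq_abs, abs_of_nonneg (by positivity)]
    have h7 : w (phi u x) * rr u x * (η x * om x) ^ 2 ≤ Gw lam x ^ 2 := by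
      calc w (phi u x) * rr u x * (η x * om x) ^ 2 ≤ 1 * (η x * om x) ^ 2 :=
            mul_le_mul_of_nonneg_right h2 h6
        _ ≤ _ := by rw [one_mul]; exact h3
    have h8 : 0 ≤ w (phi u x) * rr u x * (η x * om x) ^ 2 := mul_nonneg h1 h6
    have h9 : 0 ≤ κ ^ 2 := sq_nonneg _
    have h10 : 0 ≤ Gw lam x ^ 2 := sq_nonneg _
    calc w (phi u x) * rr u x * (η x * om x) ^ 2 * (qq u x + κ ^ 2)
        ≤ Gw lam x ^ 2 * (1 + κ ^ 2) := by
          refine mul_le_mul h7 (by linarith) (by linarith) h10
      _ = _ := by ring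

theorem stT2 : StT2 := by
  intro s3 C1 hs3 hC1 CX δ W lam μ c2 Cp ε κ u B η w χ om hW hlW hS hP
  have hG : Integrable (fun x => Gw lam x ^ 2) := H586.int_Gw_sq hS.lam0
  refine ⟨4 * (dmx ε κ + 1) * ∫ x, Gw lam x ^ 2, fun R b hb e he0 heR => ?_⟩
  have hu : Sol u := hS.hs.toSol
  have h1 := hS.hs.lt
  have hp := H88.phi_contDiff hu h1
  have hcd := phe_cd hS hP hs3 hb
  have hcs := phe_cs hS hP hb
  have hd0 : 0 ≤ dmx ε κ := dmx_nonneg hS hP
  set Φ := PhE s3 ε κ u η om b with hΦ
  set F : R3 × ℝ → ℝ := fun z => w (phi u z.1) * rr u z.1 *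
        (χ (xt u z.1 z.2) * (jj u z.1 z.2 *
            (ptt Φ z ^ 2
              + (VV u (xt u z.1 z.2) + e) * Φ z ^ 2))
          + jj u z.1 z.2 * (Φ z * ptt Φ z) *
            ∑ i, nn u z.1 i * pd i χ (xt u z.1 z.2)) with hF
  have hK : IsCompact (tsupport Φ) := hcs
  have hpos : ∀ z ∈ tsupport Φ, H88.CB u z := fun z hz => by
    obtain ⟨ha, hb1, hc1, hd1⟩ := phe_supp hS hP hs3 hb hz
    exact H88.cb hp (by linarith [(hP.geo z.1 ha hb1 z.2 hd1).1])
  have iF : Integrable F := by
    refine H88.integrable_of_loc hK (fun z hz => ?_) (fun z hz => ?_)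
    · have hc := hpos z hz
      have hx : ∀ g : R3 → ℝ, Continuous g → ContinuousAt (fun z : R3 × ℝ => g (xt u z.1 z.2)) z :=
        fun g hg => ContinuousAt.comp (g := g) hg.continuousAt hc.xt
      have cΦ : ContinuousAt Φ z := hcd.continuous.continuousAt
      have cP : ContinuousAt (ptt Φ) z := (H88.continuous_ptt hcd).continuousAt
      refine (((hS.wc.continuousAt).comp hc.ph).mul hc.r).mul (ContinuousAt.add ?_ ?_)
      · exact (hx χ hS.chi2.continuous).mul (hc.j.mul ((cP.pow 2).add
          (((hx _ (H88.VV_continuous hu)).add continuousAt_const).mul (cΦ.pow 2))))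
      · refine (hc.j.mul (cΦ.mul cP)).mul ?_
        refine tendsto_finset_sum _ fun i _ => ?_
        exact ((continuousAt_pi.mp hc.n) i).mul
          (hx _ (continuous_pd (hS.chi2.of_le (by norm_num))))
    · have h0 := image_eq_zero_of_notMem_tsupport hz
      simp only [hF, h0, H88.ptt_zero hz]
      simp
  have hfub : ∫ z, F z = ∫ x, ∫ t, F (x, t) := integral_prod F iF
  have iI : Integrable fun x => ∫ t, F (x, t) := iF.integral_prod_left
  -- the second function
  set I2 : R3 → ℝ := fun x => w (phi u x) * rr u x * (η x * om x * b x) ^ 2 *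
          (χ x * (c2 * qq u x - sig0 * kk u x)) with hI2
  have eI2 : ∀ x, I2 x = w (phi u x) * rr u x * EE s3 u η om b x ^ 2 *
          (χ x * (c2 * qq u x - sig0 * kk u x)) := by
    intro x
    rcases w_zero_or hS x with h | h
    · simp only [hI2, h]; ring
    · simp only [hI2, ee_eq (η := η) (om := om) (b := b) hs3 h.le]
  have iI2 : Integrable I2 := by
    have e2 : I2 = fun x => w (phi u x) * rr u x * EE s3 u η om b x ^ 2 *
          (χ x * (c2 * qq u x - sig0 * kk u x)) := funext eI2
    rw [e2]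
    have hKE : IsCompact (tsupport (EE s3 u η om b)) := by
      refine (isCompact_eno (2 * R)).of_isClosed_subset (isClosed_tsupport _) fun x hx => ?_
      exact (ee_tsupport hS hs3 hb hx).2.2
    refine integrable_of_loc3 hKE (fun x hx => ?_) (fun x hx => ?_)
    · obtain ⟨ha, hb1, hc1⟩ := ee_tsupport hS hs3 hb hx
      have hr := rr_half hS hP ha hb1
      have hg := gs_pos_of_rr (u := u) (x := x) (by linarith)
      refine (((hS.wc.comp (hp 0).continuous).continuousAt.mul
        (H88.rr_cda hp hg 0).continuousAt).mul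
        ((ee_cd hS hb).continuous.continuousAt.pow 2)).mul
        (hS.chi2.continuous.continuousAt.mul ?_)
      exact (continuousAt_const.mul (H88.qq_continuous hp).continuousAt).sub
        (continuousAt_const.mul (H88.kk_cda hp hg 0).continuousAt)
    · rw [image_eq_zero_of_notMem_tsupport hx]; ring
  have iD := int_D (κ := κ) hS
  -- pointwise inequality
  have key : ∀ x, (∫ t, F (x, t)) + I2 x
      ≤ Cp * (1 / W + ε) * (w (phi u x) * rr u x * (η x * om x) ^ 2 * (qq u x + κ ^ 2))
        + e * (4 * (dmx ε κ + 1)) * Gw lam x ^ 2 := by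
    intro x
    have hD0 := wrr_nonneg hS x
    have hD1 := wrr_le_one hS x
    have hq := H147.qq_nonneg hu h1 x
    have hCp := hP.C0
    have hε := hP.ep0
    have hterm : 0 ≤ Cp * (1 / W + ε) * (w (phi u x) * rr u x * (η x * om x) ^ 2 * (qq u x + κ ^ 2)) := by
      positivity
    have hterm2 : 0 ≤ e * (4 * (dmx ε κ + 1)) * Gw lam x ^ 2 := by positivity
    have hFx : ∀ t, F (x, t) = w (phi u x) * rr u x * EE s3 u η om b x ^ 2 *
        (χ (xt u x t) * (jj u x t * (deriv (prf ε κ u x) t ^ 2
              + (VV u (xt u x t) + e) * prf ε κ u x t ^ 2))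
          + jj u x t * (prf ε κ u x t * deriv (prf ε κ u x) t) *
            ∑ i, nn u x i * pd i χ (xt u x t)) := by
      intro t
      simp only [hF, hΦ, ptt_phe]
      simp only [PhE]
      ring
    rw [eI2 x, integral_congr_ae (Eventually.of_forall hFx), integral_const_mul]
    by_cases hz : w (phi u x) * rr u x * EE s3 u η om b x ^ 2 = 0
    · rw [hz]; linarith
    · have hw : w (phi u x) ≠ 0 := fun h => hz (by rw [h]; ring)
      have hE : EE s3 u η om b x ≠ 0 := fun h => hz (by rw [h]; ring)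
      have hlt : |phi u x| < s3 := (w_zero_or hS x).resolve_left hw
      obtain ⟨ha, hb1, hc1⟩ := ee_tsupport (x := x) hS hs3 hb (subset_tsupport _ hE)
      have hin := inner_le hS hP he0 ha hb1
      have hEE : EE s3 u η om b x ^ 2 ≤ (η x * om x) ^ 2 := by
        rw [ee_eq hs3 hlt.le]
        obtain ⟨hb0, hb1'⟩ := hb.bb x
        have h5 : (η x * om x * b x) ^ 2 = (η x * om x) ^ 2 * b x ^ 2 := by ring
        rw [h5]
        have h6 : b x ^ 2 ≤ 1 := by nlinarith
        nlinarith [sq_nonneg (η x * om x)]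
      have hEG := hEE.trans (eta_om_sq_le hS x)
      set D := w (phi u x) * rr u x with hD
      set E2 := EE s3 u η om b x ^ 2 with hE2
      have hE20 : 0 ≤ E2 := sq_nonneg _
      have hDE : 0 ≤ D * E2 := mul_nonneg hD0 hE20
      have hmul := mul_le_mul_of_nonneg_left hin hDE
      have hqk : 0 ≤ qq u x + κ ^ 2 := by positivity
      have hA : D * E2 * (Cp * (1 / W + ε) * (qq u x + κ ^ 2))
          ≤ Cp * (1 / W + ε) * (D * (η x * om x) ^ 2 * (qq u x + κ ^ 2)) := by
        have : D * E2 * (qq u x + κ ^ 2) ≤ D * (η x * om x) ^ 2 * (qq u x + κ ^ 2) :=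
          mul_le_mul_of_nonneg_right (mul_le_mul_of_nonneg_left hEE hD0) hqk
        have hc : 0 ≤ Cp * (1 / W + ε) := by positivity
        calc _ = Cp * (1 / W + ε) * (D * E2 * (qq u x + κ ^ 2)) := by ring
          _ ≤ _ := mul_le_mul_of_nonneg_left this hc
      have hB : D * E2 * (e * (4 * (dmx ε κ + 1))) ≤ e * (4 * (dmx ε κ + 1)) * Gw lam x ^ 2 := by
        have h7 : D * E2 ≤ Gw lam x ^ 2 := by
          calc D * E2 ≤ 1 * E2 := mul_le_mul_of_nonneg_right hD1 hE20
            _ ≤ _ := by rw [one_mul]; exact hEG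
        have hc : 0 ≤ e * (4 * (dmx ε κ + 1)) := by positivity
        calc _ = e * (4 * (dmx ε κ + 1)) * (D * E2) := by ring
          _ ≤ _ := mul_le_mul_of_nonneg_left h7 hc
      have : D * E2 * (χ x * (sig0 * kk u x - c2 * qq u x) + Cp * (1 / W + ε) * (qq u x + κ ^ 2)
          + e * (4 * (dmx ε κ + 1)))
          = -(D * E2 * (χ x * (c2 * qq u x - sig0 * kk u x)))
            + D * E2 * (Cp * (1 / W + ε) * (qq u x + κ ^ 2)) + D * E2 * (e * (4 * (dmx ε κ + 1))) := by
        ring
      rw [this] at hmul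
      linarith
  have hint := integral_mono (iI.add iI2) ((iD.const_mul (Cp * (1 / W + ε))).add
    (hG.const_mul (e * (4 * (dmx ε κ + 1))))) key
  simp only [Pi.add_apply] at hint
  rw [integral_add iI iI2, integral_add (iD.const_mul _) (hG.const_mul _), integral_const_mul,
    integral_const_mul] at hint
  rw [hfub]
  refine hint.trans ?_
  have hG0 : 0 ≤ ∫ x, Gw lam x ^ 2 := integral_nonneg fun x => sq_nonneg _
  have hR1 := hb.R1
  have : e * (4 * (dmx ε κ + 1)) * ∫ x, Gw lam x ^ 2
      ≤ 4 * (dmx ε κ + 1) * (∫ x, Gw lam x ^ 2) / R := by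
    have h8 : 0 ≤ 4 * (dmx ε κ + 1) * (∫ x, Gw lam x ^ 2) := by positivity
    calc e * (4 * (dmx ε κ + 1)) * ∫ x, Gw lam x ^ 2
        = e * (4 * (dmx ε κ + 1) * ∫ x, Gw lam x ^ 2) := by ring
      _ ≤ 1 / R * (4 * (dmx ε κ + 1) * ∫ x, Gw lam x ^ 2) := mul_le_mul_of_nonneg_right heR h8
      _ = _ := by ring
  linarith

end Vale.Agent.P134.LI.T2
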