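import Vale.Agent.P134.LI.SD1def
import Vale.Agent.P134.LI.Fct
import Vale.Agent.P134.H873.Het

/-! P134, package R3: one-dimensional facts about the heteroclinic and the profile, shared by the
sub-blocks T1, T2, T3 of `StSD1`. -/

set_option linter.all false

namespace Vale.Agent.P134.LI.Fct

open Vale.Agent.P134 Vale.Agent.P134.SM Vale.Agent.P134.LI MeasureTheory Filter Topology

variable {ε κ s3 s t T W : ℝ} {u : R3 → ℝ} {B : Set R3} {x : R3}

lemma g1_het : g1 = H873.g1 := rfl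

lemma g1_cont : Continuous g1 := H873.continuous_g1

lemma g1_pos (s : ℝ) : 0 < g1 s := H147.g1_pos s

lemma g1_sq_le_half (s : ℝ) : g1 s ^ 2 ≤ 1 / 2 := H873.g1_sq_le s

lemma g1_shift_cont (s : ℝ) : Continuous fun t => g1 (s + t) ^ 2 :=
  (g1_cont.comp (continuous_const.add continuous_id)).pow 2

/-- `g1 (s + ·) ^ 2` is integrable. -/
lemma integrable_g1_shift (s : ℝ) : Integrable fun t => g1 (s + t) ^ 2 :=
  Integrable.comp_add_left (f := fun t => g1 t ^ 2) H873.integrable_g1_sq s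

/-- `∫ g1 (s + t) ^ 2 dt = sig0`. -/
lemma integral_g1_shift (s : ℝ) : ∫ t, g1 (s + t) ^ 2 = sig0 := H873.integral_shift_g1_sq s

lemma sig0_pos : 0 < sig0 := by unfold sig0; positivity

/-- the constant in the exponential bound. -/
noncomputable def cG (s3 : ℝ) : ℝ := 8 * Real.exp (2 * Real.sqrt 2 * s3)

lemma cG_pos (s3 : ℝ) : 0 < cG s3 := by unfold cG; positivity

/-- `g1 (s + t) ^ 2 ≤ 8 e^{2√2 s3} e^{-2√2 |t|}` for `|s| ≤ s3`. -/
lemma g1_sq_le_exp (h : |s| ≤ s3) (t : ℝ) :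
    g1 (s + t) ^ 2 ≤ cG s3 * Real.exp (-(2 * Real.sqrt 2) * |t|) := by
  have h0 := H147.g1_le (s + t)
  have h1 := g1_pos (s + t)
  have h2 : g1 (s + t) ^ 2 ≤ (4 / Real.sqrt 2 * Real.exp (-(Real.sqrt 2 * |s + t|))) ^ 2 :=
    pow_le_pow_left₀ h1.le h0 2
  have h3 : (4 / Real.sqrt 2 * Real.exp (-(Real.sqrt 2 * |s + t|))) ^ 2
      = 8 * Real.exp (-(2 * Real.sqrt 2) * |s + t|) := by
    rw [mul_pow, div_pow, Real.sq_sqrt (by norm_num), ← Real.exp_nat_mul]
    norm_num
    ring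
  rw [h3] at h2
  refine h2.trans ?_
  unfold cG
  rw [mul_assoc, ← Real.exp_add]
  refine mul_le_mul_of_nonneg_left (Real.exp_le_exp.mpr ?_) (by norm_num)
  have h4 : |t| ≤ |s + t| + |s| := by
    have := abs_sub (s + t) s
    rwa [add_sub_cancel_left] at this
  have h5 : 0 ≤ Real.sqrt 2 := Real.sqrt_nonneg 2
  nlinarith

lemma integrable_exp_r2 : Integrable fun t : ℝ => Real.exp (-(2 * Real.sqrt 2) * |t|) := by
  have := H873.integrable_exp_abs (b := 2 * Real.sqrt 2) (by positivity)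
  simpa only [neg_mul] using this

lemma integrable_abs_exp : Integrable fun t : ℝ => |t| * Real.exp (-(2 * Real.sqrt 2) * |t|) := by
  have h := H873.integrable_exp_abs (b := Real.sqrt 2) (by positivity)
  refine h.mono' (by fun_prop) (Eventually.of_forall fun t => ?_)
  rw [Real.norm_eq_abs, abs_of_nonneg (by positivity)]
  have h1 : (1:ℝ) ≤ Real.sqrt 2 := H147.r2_one_le
  have h2 : |t| ≤ Real.exp (Real.sqrt 2 * |t|) := by
    have := Real.add_one_le_exp (Real.sqrt 2 * |t|)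
    nlinarith [abs_nonneg t]
  calc |t| * Real.exp (-(2 * Real.sqrt 2) * |t|)
      ≤ Real.exp (Real.sqrt 2 * |t|) * Real.exp (-(2 * Real.sqrt 2) * |t|) := by gcongr
    _ = Real.exp (-(Real.sqrt 2 * |t|)) := by rw [← Real.exp_add]; congr 1; ring

/-- tails: `∫_{|t| ≥ T} e^{-2√2|t|} ≤ e^{-2√2 T}`. -/
lemma tail_exp (hT : 0 ≤ T) :
    ∫ t in {t : ℝ | T ≤ |t|}, Real.exp (-(2 * Real.sqrt 2) * |t|)
      ≤ Real.exp (-(2 * Real.sqrt 2) * T) := by
  have hm : MeasurableSet {t : ℝ | T ≤ |t|} := measurableSet_le measurable_const (by fun_prop)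
  have h := H873.integral_tail (b := 2 * Real.sqrt 2) (by positivity) hT
  have e : ∫ t in {t : ℝ | T ≤ |t|}, Real.exp (-(2 * Real.sqrt 2) * |t|)
      = ∫ t, (if T ≤ |t| then Real.exp (-(2 * Real.sqrt 2 * |t|)) else 0) := by
    rw [← integral_indicator hm]
    refine integral_congr_ae (Eventually.of_forall fun t => ?_)
    simp only [Set.indicator, Set.mem_setOf_eq, neg_mul]
  rw [e, h]
  have h1 : (1:ℝ) ≤ Real.sqrt 2 := H147.r2_one_le
  have h2 : 2 / (2 * Real.sqrt 2) ≤ 1 := by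
    rw [div_le_one (by positivity)]; linarith
  calc 2 / (2 * Real.sqrt 2) * Real.exp (-(2 * Real.sqrt 2 * T))
      ≤ 1 * Real.exp (-(2 * Real.sqrt 2 * T)) := by gcongr
    _ = _ := by rw [one_mul, neg_mul]

/-- tails of `g1²`. -/
lemma tail_g1 (h : |s| ≤ s3) (hT : 0 ≤ T) :
    ∫ t in {t : ℝ | T ≤ |t|}, g1 (s + t) ^ 2 ≤ cG s3 * Real.exp (-(2 * Real.sqrt 2) * T) := by
  have h1 : ∫ t in {t : ℝ | T ≤ |t|}, g1 (s + t) ^ 2
      ≤ ∫ t in {t : ℝ | T ≤ |t|}, cG s3 * Real.exp (-(2 * Real.sqrt 2) * |t|) :=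
    integral_mono (integrable_g1_shift s).integrableOn
      (integrable_exp_r2.const_mul _).integrableOn (fun t => g1_sq_le_exp h t)
  rw [integral_const_mul] at h1
  exact h1.trans (mul_le_mul_of_nonneg_left (tail_exp hT) (cG_pos s3).le)

/-! ### the profile -/

lemma prf_sq_le (x : R3) (t : ℝ) : prf ε κ u x t ^ 2 ≤ g1 (phi u x + t) ^ 2 :=
  pow_le_pow_left₀ (prf_nonneg x t) (prf_le x t) 2

lemma prf_sq_le_exp (h : |phi u x| ≤ s3) (t : ℝ) :
    prf ε κ u x t ^ 2 ≤ cG s3 * Real.exp (-(2 * Real.sqrt 2) * |t|) :=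
  (prf_sq_le x t).trans (g1_sq_le_exp h t)

lemma prf_cont_t (x : R3) : Continuous fun t => prf ε κ u x t := by
  unfold prf zt
  exact (g1_cont.comp (continuous_const.add continuous_id)).mul
    (Real.smoothTransition.continuous.comp (continuous_const.sub continuous_abs))

lemma integrable_prf_sq (x : R3) : Integrable fun t => prf ε κ u x t ^ 2 := by
  refine (integrable_g1_shift (phi u x)).mono' ((prf_cont_t x).pow 2).aestronglyMeasurable
    (Eventually.of_forall fun t => ?_)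
  rw [Real.norm_eq_abs, abs_of_nonneg (sq_nonneg _)]
  exact prf_sq_le x t

/-- bounded weights times `prf²` are integrable. -/
lemma integrable_mul_prf_sq (x : R3) {h : ℝ → ℝ} (hm : AEStronglyMeasurable h volume) {C : ℝ}
    (hC : ∀ t, |h t| ≤ C) : Integrable fun t => h t * prf ε κ u x t ^ 2 :=
  (integrable_prf_sq x).bdd_mul hm (Eventually.of_forall fun t => by
    rw [Real.norm_eq_abs]; exact hC t)

lemma integral_prf_sq_le (x : R3) : ∫ t, prf ε κ u x t ^ 2 ≤ sig0 := by
  rw [← integral_g1_shift (phi u x)]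
  exact integral_mono (integrable_prf_sq x) (integrable_g1_shift _) (prf_sq_le x)

/-- `x ↦ x + t n(x)` is continuous in `t`. -/
lemma xt_cont_t (x : R3) : Continuous fun t => xt u x t := by
  unfold xt
  exact continuous_pi fun i => continuous_const.add (continuous_id.mul continuous_const)

/-- `0 ≤ ∫ χ(x~) prf² ≤ sig0`. -/
lemma integral_chi_prf_sq_le {χ : R3 → ℝ} (hc : Continuous χ) (hb : ∀ x, 0 ≤ χ x ∧ χ x ≤ 1)
    (x : R3) : 0 ≤ (∫ t, χ (xt u x t) * prf ε κ u x t ^ 2) ∧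
      ∫ t, χ (xt u x t) * prf ε κ u x t ^ 2 ≤ sig0 := by
  constructor
  · exact integral_nonneg fun t => mul_nonneg (hb _).1 (sq_nonneg _)
  · refine le_trans ?_ (integral_prf_sq_le (ε := ε) (κ := κ) (u := u) x)
    refine integral_mono (integrable_mul_prf_sq x (C := 1)
      (hc.comp (xt_cont_t x)).aestronglyMeasurable (fun t => ?_)) (integrable_prf_sq x)
      (fun t => ?_)
    · rw [abs_of_nonneg (hb _).1]; exact (hb _).2
    · exact mul_le_of_le_one_left (sq_nonneg _) (hb _).2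

/-! ### the far tails -/

/-- the set in the definition of `hB`. -/
def tB (W : ℝ) (B : Set R3) (x : R3) : Set ℝ := {t : ℝ | W / 2 ≤ |t| ∧ ¬ Far B (2 * W + |t|) x}

/-- the same set as a subset of `R³ × ℝ`. -/
def zB (W : ℝ) (B : Set R3) : Set (R3 × ℝ) :=
  {z | W / 2 ≤ |z.2| ∧ ¬ Far B (2 * W + |z.2|) z.1}

lemma measurableSet_zB (W : ℝ) (B : Set R3) : MeasurableSet (zB W B) := by
  have h1 : MeasurableSet {z : R3 × ℝ | W / 2 ≤ |z.2|} :=
    (isClosed_le continuous_const continuous_snd.abs).measurableSet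
  have h2 : IsClosed {z : R3 × ℝ | Far B (2 * W + |z.2|) z.1} := by
    have : {z : R3 × ℝ | Far B (2 * W + |z.2|) z.1}
        = ⋂ b ∈ B, {z : R3 × ℝ | 2 * W + |z.2| ≤ eno (z.1 - b)} := by
      ext z; simp [Far]
    rw [this]
    exact isClosed_biInter fun b _ => isClosed_le (continuous_const.add continuous_snd.abs)
      (continuous_eno.comp (continuous_fst.sub continuous_const))
  exact h1.inter h2.measurableSet.compl

lemma measurableSet_tB (W : ℝ) (B : Set R3) (x : R3) : MeasurableSet (tB W B x) :=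
  (measurableSet_zB W B).preimage (by fun_prop : Measurable fun t : ℝ => (x, t))

lemma hB_eq (W : ℝ) (B : Set R3) (x : R3) :
    hB W B x = ∫ t in tB W B x, Real.exp (-(2 * Real.sqrt 2) * |t|) := rfl

lemma hB_nonneg (W : ℝ) (B : Set R3) (x : R3) : 0 ≤ hB W B x :=
  integral_nonneg fun t => (Real.exp_pos _).le

/-- `h_B ≤ e^{-√2 W}`. -/
lemma hB_le (hW : 0 ≤ W) (B : Set R3) (x : R3) : hB W B x ≤ Real.exp (-(Real.sqrt 2) * W) := by
  have h := tail_exp (T := W / 2) (by linarith)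
  have e : -(2 * Real.sqrt 2) * (W / 2) = -(Real.sqrt 2) * W := by ring
  rw [e] at h
  refine le_trans ?_ h
  rw [hB_eq]
  exact setIntegral_mono_set integrable_exp_r2.integrableOn
    (Eventually.of_forall fun t => (Real.exp_pos _).le)
    (Eventually.of_forall fun t ht => ht.1)

/-- the part of a ray through `x`, `|φ(x)| ≤ s3`, which is at depth `≥ W/2` and hits the bad zone
`{d < 2W}`. -/
lemma far_tail (h : |phi u x| ≤ s3) {F : ℝ → ℝ} (hF : ∀ t, 0 ≤ F t)
    (hF1 : ∀ t, F t ≤ g1 (phi u x + t) ^ 2)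
    (hF2 : ∀ t, F t ≠ 0 → W / 2 ≤ |t| ∧ ¬ Far B (2 * W) (xt u x t)) :
    ∫ t, F t ≤ cG s3 * hB W B x := by
  rw [hB_eq, ← integral_const_mul, ← integral_indicator (measurableSet_tB W B x)]
  by_cases hI : Integrable F
  · refine integral_mono hI (((integrable_exp_r2.const_mul _).indicator
      (measurableSet_tB W B x))) (fun t => ?_)
    by_cases h0 : F t = 0
    · rw [h0]
      exact Set.indicator_nonneg (fun t _ => mul_nonneg (cG_pos s3).le (Real.exp_pos _).le) t
    · have h1 := hF2 t h0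
      have h2 : t ∈ tB W B x := ⟨h1.1, not_far_xt h1.2⟩
      rw [Set.indicator_of_mem h2]
      exact (hF1 t).trans (g1_sq_le_exp h t)
  · rw [integral_undef hI]
    refine integral_nonneg fun t => ?_
    exact Set.indicator_nonneg (fun t _ => mul_nonneg (cG_pos s3).le (Real.exp_pos _).le) t

/-- set form of `far_tail`. -/
lemma far_tail_set (h : |phi u x| ≤ s3) :
    ∫ t in {t : ℝ | W / 2 ≤ |t| ∧ ¬ Far B (2 * W) (xt u x t)}, g1 (phi u x + t) ^ 2
      ≤ cG s3 * hB W B x := by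
  have hm : MeasurableSet {t : ℝ | W / 2 ≤ |t| ∧ ¬ Far B (2 * W) (xt u x t)} := by
    have h1 : MeasurableSet {t : ℝ | W / 2 ≤ |t|} :=
      (isClosed_le continuous_const continuous_abs).measurableSet
    have h2 : MeasurableSet {t : ℝ | ¬ Far B (2 * W) (xt u x t)} :=
      (measurableSet_not_far B (2 * W)).preimage (xt_cont_t x).measurable
    exact h1.inter h2
  rw [← integral_indicator hm]
  refine far_tail h (fun t => Set.indicator_nonneg (fun t _ => sq_nonneg _) t) (fun t => ?_)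
    (fun t ht => ?_)
  · exact Set.indicator_le_self' (fun t _ => sq_nonneg _) t
  · have h3 : t ∈ {t : ℝ | W / 2 ≤ |t| ∧ ¬ Far B (2 * W) (xt u x t)} :=
      Set.mem_of_indicator_ne_zero ht
    exact h3

/-- tube measure of the bad tails: `∬ Gw² 1_{zB} e^{-2√2|t|} = ∫ Gw² h_B`. -/
lemma bad_tail {G : R3 → ℝ} (hG : Integrable fun x => G x ^ 2) :
    Integrable ((zB W B).indicator fun z : R3 × ℝ =>
        G z.1 ^ 2 * Real.exp (-(2 * Real.sqrt 2) * |z.2|)) ∧
      ∫ z : R3 × ℝ, (zB W B).indicator (fun z : R3 × ℝ =>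
        G z.1 ^ 2 * Real.exp (-(2 * Real.sqrt 2) * |z.2|)) z = ∫ x, G x ^ 2 * hB W B x := by
  have hI : Integrable ((zB W B).indicator fun z : R3 × ℝ =>
      G z.1 ^ 2 * Real.exp (-(2 * Real.sqrt 2) * |z.2|)) := by
    refine Integrable.indicator ?_ (measurableSet_zB W B)
    rw [Measure.volume_eq_prod]
    exact hG.mul_prod integrable_exp_r2
  refine ⟨hI, ?_⟩
  rw [Measure.volume_eq_prod] at hI ⊢
  rw [integral_prod _ hI]
  refine integral_congr_ae (Eventually.of_forall fun x => ?_)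
  simp only
  rw [hB_eq, ← integral_const_mul, ← integral_indicator (measurableSet_tB W B x)]
  rfl

end Vale.Agent.P134.LI.Fct
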