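import Vale.Agent.P134.LI.SDdef
import Vale.Agent.P134.H88.SCDef

/-! P134, package R3: exact statements of the sub-blocks UB, T1, T2, T3, T4 of S-D1 (`StSD1`). -/

set_option linter.all false

namespace Vale.Agent.P134.LI

open Vale.Agent.P134 Vale.Agent.P134.SM MeasureTheory Filter Topology

/-- cut-off in the values of `φ`: `1` for `|s| ≤ s3`, `0` for `|s| ≥ s3 + 1`. -/
noncomputable def wt (s3 s : ℝ) : ℝ :=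
  Real.smoothTransition (((s3 + 1) ^ 2 - s ^ 2) / ((s3 + 1) ^ 2 - s3 ^ 2))

/-- amplitude of the tube test function. -/
noncomputable def EE (s3 : ℝ) (u η om b : R3 → ℝ) (x : R3) : ℝ :=
  η x * om x * b x * wt s3 (phi u x)

/-- the tube test function. -/
noncomputable def PhE (s3 ε κ : ℝ) (u η om b : R3 → ℝ) (z : R3 × ℝ) : ℝ :=
  EE s3 u η om b z.1 * prf ε κ u z.1 z.2

/-- maximal depth. -/
noncomputable def dmx (ε κ : ℝ) : ℝ := Real.log (1 / (ε * κ ^ 2)) / (2 * Real.sqrt 2)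

/-- cut-off at infinity. -/
structure BDat (C1 R : ℝ) (b : R3 → ℝ) : Prop where
  R1 : 1 ≤ R
  b2 : ContDiff ℝ 2 b
  bb : ∀ x, 0 ≤ b x ∧ b x ≤ 1
  b1 : ∀ x, eno x ≤ R → b x = 1
  b0 : ∀ x, 2 * R ≤ eno x → b x = 0
  bd : ∀ x i, |pd i b x| ≤ C1 / R
  bdd : ∀ x i j, |pd i (pd j b) x| ≤ C1 / R ^ 2

/-- what `StPW`, `StCDX` (for `s3 + 1`) give at the good points. -/
structure PtF (s3 μ c2 Cp ε κ W : ℝ) (u : R3 → ℝ) (B : Set R3) (χ : R3 → ℝ) : Prop where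
  mu0 : 0 < μ
  mu1 : μ ≤ 1 / 2
  c20 : 0 < c2
  C0 : 0 < Cp
  ep0 : 0 < ε
  ep1 : ε ≤ 1 / 2
  ka0 : 0 < κ
  ka1 : κ ≤ 1
  geo : ∀ x, |phi u x| ≤ s3 + 1 → Far B (W / 4) x → ∀ t, |t| ≤ dep ε κ u x + 1 →
    1 / 2 < rr u x ∧ 1 - μ ≤ jj u x t ∧ jj u x t ≤ 1 + μ
  pw : ∀ x, |phi u x| ≤ s3 + 1 → Far B (W / 4) x →
    (∫ t, χ (xt u x t) * (jj u x t * (deriv (prf ε κ u x) t ^ 2
      + VV u (xt u x t) * prf ε κ u x t ^ 2)))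
    + (1 / 2) * (∫ t, jj u x t * deriv (fun s => prf ε κ u x s ^ 2) t *
        ∑ i, nn u x i * pd i χ (xt u x t))
    ≤ χ x * (sig0 * kk u x - c2 * qq u x) + Cp * (1 / W + ε) * (qq u x + κ ^ 2)
  cdx2 : ∀ E : R3 → ℝ, ContDiff ℝ 1 E → ∀ x, |phi u x| ≤ s3 + 1 → Far B (W / 4) x →
    ∫ t, χ (xt u x t) * (esq (cdx u (fun z => E z.1 * prf ε κ u z.1 z.2) (x, t)) / jj u x t)
      ≤ (1 + μ) * gs E x * (∫ t, χ (xt u x t) * prf ε κ u x t ^ 2)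
        + Cp * ε * (qq u x + κ ^ 2) * E x ^ 2
  cdx3 : ∀ E : R3 → ℝ, ContDiff ℝ 1 E → ∀ x, |phi u x| ≤ s3 + 1 → Far B (W / 4) x →
    ∀ t, Real.sqrt (esq (cdx u (fun z => (E z.1 * prf ε κ u z.1 z.2) ^ 2) (x, t)))
      ≤ Cp * |E x| * Real.sqrt (gs E x) * prf ε κ u x t ^ 2
        + (if dep ε κ u x ≤ |t| ∧ |t| ≤ dep ε κ u x + 1 then Cp * ε * (qq u x + κ ^ 2) * E x ^ 2
            else 0)

/-- far tails of the tubes which reach the bad zone. -/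
noncomputable def hB (W : ℝ) (B : Set R3) (x : R3) : ℝ :=
  ∫ t in {t : ℝ | W / 2 ≤ |t| ∧ ¬ Far B (2 * W + |t|) x}, Real.exp (-(2 * Real.sqrt 2) * |t|)

/-- UB. -/
def StUB : Prop := ∃ C : ℝ, 0 < C ∧ ∀ (W lam : ℝ) (B : Set R3), 1 ≤ W → 0 < lam → lam ≤ 1 / 20 →
  Latt B → Measurable (hB W B) ∧ (∀ x, 0 ≤ hB W B x ∧ hB W B x ≤ C * Real.exp (-W)) ∧
    ∫ x, Gw lam x ^ 2 * hB W B x ≤ C * Real.exp (-W) * ∑' b : B, Gw lam b ^ 2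

/-- T1: the mismatch terms. -/
def StT1 : Prop := ∀ s3 C1 : ℝ, 0 < s3 → 0 < C1 → ∃ C : ℝ, 0 < C ∧
  ∀ (CX δ W lam μ c2 Cp ε κ : ℝ) (u : R3 → ℝ) (B : Set R3) (η : R3 → ℝ) (w : ℝ → ℝ)
    (χ om : R3 → ℝ), 1 ≤ W → lam * W ≤ 1 / 20 → SDat CX s3 δ W lam C1 u B η w χ om →
  PtF s3 μ c2 Cp ε κ W u B χ →
  (∀ v : R3 → ℝ, Measurable v → (∀ x, |v x| ≤ 1) →
    (∀ x, v x ≠ 0 → Far B W x ∧ ¬ Far B (2 * W) x) →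
    |(∫ s, w s) * (∫ x, Gw lam x ^ 2 * ff u x ^ 2 * v x)
      - ∫ x, w (phi u x) * rr u x * (Gw lam x * om x) ^ 2 *
          ∫ t, jj u x t * prf ε κ u x t ^ 2 * v (xt u x t)| ≤ Bmis W lam u B w) →
  ∃ Cu : ℝ, ∀ (R : ℝ) (b : R3 → ℝ), BDat C1 R b → ∀ (N : ℝ) (v0 : R3 → ℝ), 0 < N →
    Continuous v0 → (∀ x, eno x ≤ 2 * R + dmx ε κ + 1 → |v0 x| ≤ N) →
    (∀ x, v0 x ≠ 0 → Far B W x ∧ ¬ Far B (2 * W) x) →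
    |(∫ s, w s) * (∫ x, (Gw lam x * b x) ^ 2 * ff u x ^ 2 * v0 x)
      - ∫ z : R3 × ℝ, w (phi u z.1) * rr u z.1 *
          (jj u z.1 z.2 * PhE s3 ε κ u η om b z ^ 2 * v0 (xt u z.1 z.2))|
    ≤ N * (Bmis W lam u B w + C * Real.exp (-W) * (∑' b : B, Gw lam b ^ 2) + Cu / R)

/-- T2: the longitudinal terms. -/
def StT2 : Prop := ∀ s3 C1 : ℝ, 0 < s3 → 0 < C1 →
  ∀ (CX δ W lam μ c2 Cp ε κ : ℝ) (u : R3 → ℝ) (B : Set R3) (η : R3 → ℝ) (w : ℝ → ℝ)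
    (χ om : R3 → ℝ), 1 ≤ W → lam * W ≤ 1 / 20 → SDat CX s3 δ W lam C1 u B η w χ om →
  PtF s3 μ c2 Cp ε κ W u B χ →
  ∃ Cu : ℝ, ∀ (R : ℝ) (b : R3 → ℝ), BDat C1 R b → ∀ e : ℝ, 0 ≤ e → e ≤ 1 / R →
    (∫ z : R3 × ℝ, w (phi u z.1) * rr u z.1 *
        (χ (xt u z.1 z.2) * (jj u z.1 z.2 *
            (ptt (PhE s3 ε κ u η om b) z ^ 2
              + (VV u (xt u z.1 z.2) + e) * PhE s3 ε κ u η om b z ^ 2))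
          + jj u z.1 z.2 * (PhE s3 ε κ u η om b z * ptt (PhE s3 ε κ u η om b) z) *
            ∑ i, nn u z.1 i * pd i χ (xt u z.1 z.2)))
    + (∫ x, w (phi u x) * rr u x * (η x * om x * b x) ^ 2 *
          (χ x * (c2 * qq u x - sig0 * kk u x)))
    ≤ Cp * (1 / W + ε) * (∫ x, w (phi u x) * rr u x * (η x * om x) ^ 2 * (qq u x + κ ^ 2))
      + Cu / R

/-- T3: the tangential terms. -/
def StT3 : Prop := ∀ s3 C1 μ Cp : ℝ, 0 < s3 → 0 < C1 → 0 < μ → μ < 1 → 0 < Cp →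
  ∃ C W0 : ℝ, 0 < C ∧ 1 ≤ W0 ∧
  ∀ (CX δ W lam c2 ε κ : ℝ) (u : R3 → ℝ) (B : Set R3) (η : R3 → ℝ) (w : ℝ → ℝ)
    (χ om : R3 → ℝ), W0 ≤ W → lam * W ≤ 1 / 20 → SDat CX s3 δ W lam C1 u B η w χ om →
  PtF s3 (μ / 8) c2 Cp ε κ W u B χ →
  ∃ Cu : ℝ, ∀ (R : ℝ) (b : R3 → ℝ), BDat C1 R b →
    (∫ z : R3 × ℝ, w (phi u z.1) * rr u z.1 *
        (χ (xt u z.1 z.2) * (esq (cdx u (PhE s3 ε κ u η om b) z) / jj u z.1 z.2)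
          + PhE s3 ε κ u η om b z *
            ∑ i, cdx u (PhE s3 ε κ u η om b) z i * pd i χ (xt u z.1 z.2)))
    ≤ (1 + μ) * sig0 * (∫ x, w (phi u x) * rr u x * gs η x)
      + C * (1 / W + ε) * (∫ x, w (phi u x) * rr u x * (η x * om x) ^ 2 * (qq u x + κ ^ 2))
      + (C * lam * W ^ 4 + C * Real.exp (-W)) * (∑' b : B, Gw lam b ^ 2) + Cu / R

/-- T3a: the tangential terms, first half. -/
def StT3a : Prop := ∀ s3 C1 μ Cp : ℝ, 0 < s3 → 0 < C1 → 0 < μ → μ < 1 → 0 < Cp →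
  ∃ C W0 : ℝ, 0 < C ∧ 1 ≤ W0 ∧
  ∀ (CX δ W lam c2 ε κ : ℝ) (u : R3 → ℝ) (B : Set R3) (η : R3 → ℝ) (w : ℝ → ℝ)
    (χ om : R3 → ℝ), W0 ≤ W → lam * W ≤ 1 / 20 → SDat CX s3 δ W lam C1 u B η w χ om →
  PtF s3 (μ / 8) c2 Cp ε κ W u B χ →
  ∃ Cu : ℝ, ∀ (R : ℝ) (b : R3 → ℝ), BDat C1 R b →
    (∫ z : R3 × ℝ, w (phi u z.1) * rr u z.1 *
        (χ (xt u z.1 z.2) * (esq (cdx u (PhE s3 ε κ u η om b) z) / jj u z.1 z.2)))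
    ≤ (1 + μ / 2) * sig0 * (∫ x, w (phi u x) * rr u x * gs η x)
      + C * (1 / W + ε) * (∫ x, w (phi u x) * rr u x * (η x * om x) ^ 2 * (qq u x + κ ^ 2))
      + C * Real.exp (-W) * (∑' b : B, Gw lam b ^ 2) + Cu / R

/-- T3b: the tangential terms, second half. -/
def StT3b : Prop := ∀ s3 C1 μ Cp : ℝ, 0 < s3 → 0 < C1 → 0 < μ → μ < 1 → 0 < Cp →
  ∃ C W0 : ℝ, 0 < C ∧ 1 ≤ W0 ∧
  ∀ (CX δ W lam c2 ε κ : ℝ) (u : R3 → ℝ) (B : Set R3) (η : R3 → ℝ) (w : ℝ → ℝ)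
    (χ om : R3 → ℝ), W0 ≤ W → lam * W ≤ 1 / 20 → SDat CX s3 δ W lam C1 u B η w χ om →
  PtF s3 (μ / 8) c2 Cp ε κ W u B χ →
  ∃ Cu : ℝ, ∀ (R : ℝ) (b : R3 → ℝ), BDat C1 R b →
    (∫ z : R3 × ℝ, w (phi u z.1) * rr u z.1 *
        (PhE s3 ε κ u η om b z *
            ∑ i, cdx u (PhE s3 ε κ u η om b) z i * pd i χ (xt u z.1 z.2)))
    ≤ μ / 2 * sig0 * (∫ x, w (phi u x) * rr u x * gs η x)
      + C * (1 / W + ε) * (∫ x, w (phi u x) * rr u x * (η x * om x) ^ 2 * (qq u x + κ ^ 2))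
      + (C * lam * W ^ 4 + C * Real.exp (-W)) * (∑' b : B, Gw lam b ^ 2) + Cu / R

/-- T4: the ball part. -/
def StT4 : Prop := ∀ s3 C1 : ℝ, 0 < s3 → 0 < C1 → ∃ C : ℝ, 0 < C ∧
  ∀ (CX δ W lam : ℝ) (u : R3 → ℝ) (B : Set R3) (η : R3 → ℝ) (w : ℝ → ℝ)
    (χ om : R3 → ℝ), 1 ≤ W → lam * W ≤ 1 / 20 → SDat CX s3 δ W lam C1 u B η w χ om →
  ∃ Cu : ℝ, ∀ (R : ℝ) (b : R3 → ℝ), BDat C1 R b → ∀ e : ℝ, 0 ≤ e → e ≤ 1 / R →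
    (∫ s, w s) * (∫ x, ((1 - χ x) * (ff u x ^ 2 * gs (fun y => Gw lam y * b y) x
          + e * (Gw lam x * b x * ff u x) ^ 2)
        - ff u x ^ 2 * (Gw lam x * b x * gg (fun y => Gw lam y * b y) χ x)))
    ≤ C * lam * W ^ 4 * (∑' b : B, Gw lam b ^ 2) + Cu / R

end Vale.Agent.P134.LI
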